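import Mathlib.Data.Fintype.Pi
import Mathlib.Data.Fintype.Perm
import Mathlib.Algebra.Group.Subgroup.Basic
import Mathlib.Order.UpperLower.Basic
import Mathlib.Data.Setoid.Basic
import Mathlib.Logic.Equiv.Basic
import Mathlib.GroupTheory.Perm.Basic
import Mathlib.Order.Hom.Lattice

/-!
Products over a finite ordered index set: the equivalences invariant under all permutations
which preserve the relations of being equal on an upper set of coordinates are exactly these.
-/

set_option linter.unusedSectionVars false

namespace Vale.Agent.P183.H996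

theorem aps {A : Type} (f : Equiv.Perm A) (x : A) : f (f⁻¹ x) = x := f.apply_symm_apply x

theorem ieq {A : Type} (f : Equiv.Perm A) {x y : A} (h : x = f y) : f⁻¹ x = y := by
  rw [h]
  exact f.symm_apply_apply y

variable {J : Type} [PartialOrder J] {Z : J → Type}

/-- equal on the coordinates in `U` -/
def EqOn (U : Set J) (u v : ∀ j, Z j) : Prop := ∀ j ∈ U, u j = v j

/-- the permutations which preserve equality on every upper set of coordinates -/
def XG (Z : J → Type) : Subgroup (Equiv.Perm (∀ j, Z j)) where
  carrier := {g | ∀ U : Set J, IsUpperSet U → ∀ u v, EqOn U (g u) (g v) ↔ EqOn U u v}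
  one_mem' := fun _ _ _ _ => Iff.rfl
  mul_mem' := by
    intro a b ha hb U hU u v
    exact (ha U hU (b u) (b v)).trans (hb U hU u v)
  inv_mem' := by
    intro a ha U hU u v
    have h := ha U hU (a⁻¹ u) (a⁻¹ v)
    rw [aps, aps] at h
    exact h.symm

theorem mem_XG {g : Equiv.Perm (∀ j, Z j)} :
    g ∈ XG Z ↔ ∀ U : Set J, IsUpperSet U → ∀ u v, EqOn U (g u) (g v) ↔ EqOn U u v := Iff.rfl

/-- coordinatewise permutation -/
def coordP (s : ∀ j, Equiv.Perm (Z j)) : Equiv.Perm (∀ j, Z j) where
  toFun u j := s j (u j)
  invFun u j := (s j).symm (u j)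
  left_inv u := by funext j; exact (s j).symm_apply_apply _
  right_inv u := by funext j; exact (s j).apply_symm_apply _

theorem coordP_apply (s : ∀ j, Equiv.Perm (Z j)) (u : ∀ j, Z j) (j : J) :
    coordP s u j = s j (u j) := rfl

theorem coordP_mem (s : ∀ j, Equiv.Perm (Z j)) : coordP s ∈ XG Z := by
  intro U _ u v
  constructor
  · intro h j hj
    exact (s j).injective (h j hj)
  · intro h j hj
    rw [coordP_apply, coordP_apply, h j hj]

section Cond

variable [DecidableEq J]

/-- permute the coordinate `i` by `t` if the coordinate `k ≠ i` equals `a` -/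
def condP [∀ j, DecidableEq (Z j)] (i k : J) (hik : k ≠ i) (a : Z k) (t : Equiv.Perm (Z i)) :
    Equiv.Perm (∀ j, Z j) where
  toFun u := if u k = a then Function.update u i (t (u i)) else u
  invFun u := if u k = a then Function.update u i (t.symm (u i)) else u
  left_inv u := by
    by_cases h : u k = a
    · have h1 : (Function.update u i (t (u i))) k = a := by
        rw [Function.update_of_ne hik]; exact h
      simp only [h, if_true, h1]
      rw [Function.update_self, Equiv.symm_apply_apply, Function.update_idem,
        Function.update_eq_self]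
    · simp only [h, if_false]
  right_inv u := by
    by_cases h : u k = a
    · have h1 : (Function.update u i (t.symm (u i))) k = a := by
        rw [Function.update_of_ne hik]; exact h
      simp only [h, if_true, h1]
      rw [Function.update_self, Equiv.apply_symm_apply, Function.update_idem,
        Function.update_eq_self]
    · simp only [h, if_false]

theorem condP_pos [∀ j, DecidableEq (Z j)] {i k : J} (hik : k ≠ i) {a : Z k}
    (t : Equiv.Perm (Z i)) {u : ∀ j, Z j} (h : u k = a) :
    condP i k hik a t u = Function.update u i (t (u i)) := if_pos h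

theorem condP_neg [∀ j, DecidableEq (Z j)] {i k : J} (hik : k ≠ i) {a : Z k}
    (t : Equiv.Perm (Z i)) {u : ∀ j, Z j} (h : ¬ u k = a) :
    condP i k hik a t u = u := if_neg h

theorem condP_mem [∀ j, DecidableEq (Z j)] {i k : J} (hik : k ≠ i) (hle : i ≤ k) (a : Z k)
    (t : Equiv.Perm (Z i)) : condP i k hik a t ∈ XG Z := by
  have hne : ∀ (u : ∀ j, Z j) (j : J), j ≠ i → condP i k hik a t u j = u j := by
    intro u j hj
    by_cases h : u k = a
    · rw [condP_pos hik t h, Function.update_of_ne hj]
    · rw [condP_neg hik t h]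
  intro U hU u v
  constructor
  · intro h j hj
    by_cases hji : j = i
    · subst hji
      have hk : u k = v k := by
        have := h k (hU hle hj)
        rwa [hne _ _ hik, hne _ _ hik] at this
      have h1 := h j hj
      by_cases hu : u k = a
      · rw [condP_pos hik t hu, condP_pos hik t (hk ▸ hu), Function.update_self,
          Function.update_self] at h1
        exact t.injective h1
      · rw [condP_neg hik t hu, condP_neg hik t (fun hv => hu (hk.trans hv))] at h1
        exact h1
    · have h1 := h j hj
      rwa [hne _ _ hji, hne _ _ hji] at h1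
  · intro h j hj
    by_cases hji : j = i
    · subst hji
      have hk : u k = v k := h k (hU hle hj)
      by_cases hu : u k = a
      · rw [condP_pos hik t hu, condP_pos hik t (hk ▸ hu), Function.update_self,
          Function.update_self, h j hj]
      · rw [condP_neg hik t hu, condP_neg hik t (fun hv => hu (hk.trans hv))]
        exact h j hj
    · rw [hne _ _ hji, hne _ _ hji]
      exact h j hj

end Cond

/-- **Invariant equivalences.** -/
theorem inv_eq [Finite J] (h3 : ∀ (j : J) (a b : Z j), ∃ c, c ≠ a ∧ c ≠ b)
    (R : Setoid (∀ j, Z j)) (hR : ∀ g ∈ XG Z, ∀ u v, R u v → R (g u) (g v)) :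
    ∃ U : Set J, IsUpperSet U ∧ ∀ u v, R u v ↔ EqOn U u v := by
  classical
  let U : Set J := {j | ∀ u v, R u v → ∀ k, j ≤ k → u k = v k}
  have hU : IsUpperSet U := by
    intro j j' hjj' hj u v huv k hk
    exact hj u v huv k (hjj'.trans hk)
  refine ⟨U, hU, fun u v => ⟨fun h j hj => hj u v h j le_rfl, ?_⟩⟩
  -- moving one coordinate
  have step : ∀ j, j ∉ U → ∀ (w : ∀ j, Z j) (c : Z j), R w (Function.update w j c) := by
    intro j hj
    have hex : ∃ v : ∀ j, Z j, ∀ c : Z j, R v (Function.update v j c) := by
      have hj' : ∃ u v, R u v ∧ ∃ k, j ≤ k ∧ u k ≠ v k := by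
        by_contra hcon
        apply hj
        intro u v huv k hk
        by_contra hne
        exact hcon ⟨u, v, huv, k, hk, hne⟩
      obtain ⟨u, v, huv, k, hk, hne⟩ := hj'
      by_cases hkj : k = j
      · subst hkj
        obtain ⟨c0, hc1, hc2⟩ := h3 k (u k) (v k)
        have hm : ∀ t : Equiv.Perm (Z k), coordP (Function.update (fun _ => 1) k t) ∈ XG Z :=
          fun t => coordP_mem _
        have hap : ∀ (t : Equiv.Perm (Z k)) (w : ∀ j, Z j),
            coordP (Function.update (fun _ => 1) k t) w = Function.update w k (t (w k)) := by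
          intro t w
          funext i
          by_cases hi : i = k
          · subst hi
            rw [coordP_apply, Function.update_self, Function.update_self]
          · rw [coordP_apply, Function.update_of_ne hi, Function.update_of_ne hi]
            rfl
        have h1 := hR _ (hm (Equiv.swap (v k) c0)) u v huv
        rw [hap, hap, Equiv.swap_apply_of_ne_of_ne hne hc1.symm, Function.update_eq_self,
          Equiv.swap_apply_left] at h1
        have h2 : R v (Function.update v k c0) := R.trans' (R.symm' huv) h1
        refine ⟨v, fun c => ?_⟩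
        by_cases hcv : c = v k
        · rw [hcv, Function.update_eq_self]
        · have h4 := hR _ (hm (Equiv.swap c0 c)) _ _ h2
          rw [hap, hap, Equiv.swap_apply_of_ne_of_ne hc2.symm (Ne.symm hcv),
            Function.update_eq_self, Function.update_self, Equiv.swap_apply_left,
            Function.update_idem] at h4
          exact h4
      · refine ⟨v, fun c => ?_⟩
        have h1 := hR _ (condP_mem hkj hk (v k) (Equiv.swap (v j) c)) u v huv
        rw [condP_neg hkj _ hne, condP_pos hkj _ rfl, Equiv.swap_apply_left] at h1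
        exact R.trans' (R.symm' huv) h1
    obtain ⟨v, hv⟩ := hex
    intro w c
    have h1 := hR _ (coordP_mem fun i => Equiv.swap (v i) (w i)) _ _
      (hv ((Equiv.swap (v j) (w j)).symm c))
    have e1 : coordP (fun i => Equiv.swap (v i) (w i)) v = w := by
      funext i
      rw [coordP_apply, Equiv.swap_apply_left]
    have e2 : coordP (fun i => Equiv.swap (v i) (w i))
        (Function.update v j ((Equiv.swap (v j) (w j)).symm c)) = Function.update w j c := by
      funext i
      by_cases hi : i = j
      · subst hi
        rw [coordP_apply, Function.update_self, Function.update_self, Equiv.apply_symm_apply]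
      · rw [coordP_apply, Function.update_of_ne hi, Function.update_of_ne hi,
          Equiv.swap_apply_left]
    rwa [e1, e2] at h1
  intro huv
  cases nonempty_fintype J
  have key : ∀ T : Finset J, (∀ j ∈ T, j ∉ U) → R u (fun j => if j ∈ T then v j else u j) := by
    intro T
    induction T using Finset.induction_on with
    | empty =>
      intro _
      have : (fun j => if j ∈ (∅ : Finset J) then v j else u j) = u := by
        funext j
        simp
      rw [this]
    | insert i T hi ih =>
      intro hT
      refine R.trans' (ih fun j hj => hT j (Finset.mem_insert_of_mem hj)) ?_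
      have h1 := step i (hT i (Finset.mem_insert_self _ _))
        (fun j => if j ∈ T then v j else u j) (v i)
      have e : Function.update (fun j => if j ∈ T then v j else u j) i (v i) =
          fun j => if j ∈ insert i T then v j else u j := by
        funext j
        by_cases hj : j = i
        · subst hj
          simp
        · rw [Function.update_of_ne hj]
          simp [Finset.mem_insert, hj]
      rwa [e] at h1
  have h1 := key (Finset.univ.filter fun j => j ∉ U) (fun j hj => (Finset.mem_filter.1 hj).2)
  have e : (fun j => if j ∈ (Finset.univ.filter fun j => j ∉ U) then v j else u j) = v := by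
    funext j
    by_cases hj : j ∈ U
    · simp [hj, huv j hj]
    · simp [hj]
  rwa [e] at h1

/-- **Intermediate groups.** -/
theorem mid_eq [Finite J] (h3 : ∀ (j : J) (a b : Z j), ∃ c, c ≠ a ∧ c ≠ b) (z : ∀ j, Z j)
    (S : Subgroup (XG Z)) (hS : ∀ g : XG Z, g.1 z = z → g ∈ S) :
    ∃ U : Set J, IsUpperSet U ∧ ∀ g : XG Z, g ∈ S ↔ EqOn U (g.1 z) z := by
  classical
  have htr : ∀ u : ∀ j, Z j, ∃ g : XG Z, g.1 z = u := by
    intro u
    refine ⟨⟨coordP fun i => Equiv.swap (z i) (u i), coordP_mem _⟩, ?_⟩
    funext i
    exact Equiv.swap_apply_left _ _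
  let R : Setoid (∀ j, Z j) :=
    { r := fun u v => ∃ g s : XG Z, s ∈ S ∧ u = g.1 z ∧ v = g.1 (s.1 z)
      iseqv := by
        refine ⟨?_, ?_, ?_⟩
        · intro u
          obtain ⟨g, hg⟩ := htr u
          exact ⟨g, 1, S.one_mem, hg.symm, hg.symm⟩
        · rintro u v ⟨g, s, hs, hu, hv⟩
          refine ⟨g * s, s⁻¹, S.inv_mem hs, hv, ?_⟩
          rw [hu]
          change g.1 z = g.1 (s.1 ((s.1)⁻¹ z))
          rw [aps]
        · rintro u v w ⟨g, s, hs, hu, hv⟩ ⟨g', s', hs', hv', hw⟩
          have h1 : ((g * s)⁻¹ * g').1 z = z := by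
            change ((g.1 * s.1)⁻¹) (g'.1 z) = z
            rw [← hv', hv]
            exact ieq _ rfl
          refine ⟨g, s * (((g * s)⁻¹ * g') * s'), S.mul_mem hs (S.mul_mem (hS _ h1) hs'), hu, ?_⟩
          rw [hw]
          change g'.1 (s'.1 z) = g.1 (s.1 (((g.1 * s.1)⁻¹) (g'.1 (s'.1 z))))
          have : g.1 (s.1 (((g.1 * s.1)⁻¹) (g'.1 (s'.1 z)))) =
              (g.1 * s.1) (((g.1 * s.1)⁻¹) (g'.1 (s'.1 z))) := rfl
          rw [this, aps] }
  have hRd : ∀ u v, R u v ↔ ∃ g s : XG Z, s ∈ S ∧ u = g.1 z ∧ v = g.1 (s.1 z) :=
    fun _ _ => Iff.rfl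
  obtain ⟨U, hU, hRU⟩ := inv_eq h3 R (by
    rintro g hg u v ⟨g1, s, hs, hu, hv⟩
    exact ⟨⟨g, hg⟩ * g1, s, hs, by rw [hu]; rfl, by rw [hv]; rfl⟩)
  refine ⟨U, hU, fun g => ?_⟩
  have hsymm : EqOn U (g.1 z) z ↔ EqOn U z (g.1 z) :=
    ⟨fun h j hj => (h j hj).symm, fun h j hj => (h j hj).symm⟩
  rw [hsymm, ← hRU, hRd]
  constructor
  · intro hg
    exact ⟨1, g, hg, rfl, rfl⟩
  · rintro ⟨g1, s, hs, h1, h2⟩
    have hg1 : g1 ∈ S := hS g1 h1.symm
    have h4 : ((g1 * s)⁻¹ * g).1 z = z := by
      change ((g1.1 * s.1)⁻¹) (g.1 z) = z
      exact ieq _ (by rw [h2]; rfl)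
    have h5 := S.mul_mem (S.mul_mem hg1 hs) (hS _ h4)
    rwa [mul_inv_cancel_left] at h5

end Vale.Agent.P183.H996
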