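import Mathlib.Order.Hom.Lattice
import Mathlib.GroupTheory.Coset.Basic
import Mathlib.GroupTheory.GroupAction.Quotient
import Mathlib.Data.Fintype.Order
import Mathlib.Order.Fin.Basic
import Vale.Agent.P183.H996.Block
import Vale.Agent.P183.Bdl.B3

/-!
Lattices with a homomorphism onto a finite chain whose fibres are distributive (the least fibre
may be any interval in the subgroup lattice of a finite group) are representable.
-/

set_option linter.unusedSectionVars false

namespace Vale.Agent.P183.H996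

open Vale.Agent.P183

section Order

variable {L : Type} [Lattice L] [Finite L]

theorem exists_greatest (s : Set L) (hne : s.Nonempty) (hs : ∀ a ∈ s, ∀ b ∈ s, a ⊔ b ∈ s) :
    ∃ a ∈ s, ∀ b ∈ s, b ≤ a := by
  obtain ⟨a, ha, hmax⟩ := (Set.toFinite s).exists_maximal hne
  refine ⟨a, ha, fun b hb => ?_⟩
  exact le_sup_right.trans (hmax (hs a ha b hb) le_sup_left)

theorem exists_least (s : Set L) (hne : s.Nonempty) (hs : ∀ a ∈ s, ∀ b ∈ s, a ⊓ b ∈ s) :
    ∃ a ∈ s, ∀ b ∈ s, a ≤ b := by
  obtain ⟨a, ha, hmin⟩ := (Set.toFinite s).exists_minimal hne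
  refine ⟨a, ha, fun b hb => ?_⟩
  exact (hmin (hs a ha b hb) inf_le_left).trans inf_le_right

end Order

/-- The group data over the levels `≤ n` of `c`. -/
def GR {L : Type} [Lattice L] (c : L → ℕ) (n : ℕ) : Prop :=
  ∃ (Q : Type) (_ : Group Q) (_ : Finite Q) (P : L → Subgroup Q),
    (∀ a b, c b ≤ n → a ≤ b → P a ≤ P b) ∧
    (∀ a b, c b ≤ n → c a ≤ c b → P a ≤ P b → a ≤ b) ∧
    (∀ a b (S : Subgroup Q), c a = c b → c b ≤ n → P a ≤ S → S ≤ P b → ∃ x, c x = c a ∧ P x = S) ∧
    (∀ h, c h = n → (∀ x, c x ≤ n → x ≤ h) → P h = ⊤)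

section Step

variable {L : Type} [Lattice L] [Finite L] (c : L → ℕ)

/-- prime elements of the fibre `m` -/
def Pr (m : ℕ) (lo : L) (j : L) : Prop :=
  c j = m ∧ ¬ j ≤ lo ∧ ∀ a b, c a = m → c b = m → j ≤ a ⊔ b → j ≤ a ∨ j ≤ b

variable {c}

theorem sep_prime {m : ℕ} {lo : L} (hlo : ∀ x, c x = m → lo ≤ x)
    (hinf : ∀ a b, c (a ⊓ b) = min (c a) (c b))
    (hd : ∀ a b d, c a = m → c b = m → c d = m → a ⊓ (b ⊔ d) ≤ (a ⊓ b) ⊔ (a ⊓ d))
    {x y : L} (hx : c x = m) (hy : c y = m) (hxy : ¬ x ≤ y) :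
    ∃ j, Pr c m lo j ∧ j ≤ x ∧ ¬ j ≤ y := by
  obtain ⟨j, ⟨hj1, hj2, hj3⟩, hmin⟩ :=
    (Set.toFinite {j : L | c j = m ∧ j ≤ x ∧ ¬ j ≤ y}).exists_minimal ⟨x, hx, le_rfl, hxy⟩
  have hmin' : ∀ a, c a = m → ¬ j ≤ a → j ⊓ a ≤ y := by
    intro a ha hja
    by_contra hcon
    have h1 : j ⊓ a ∈ {j : L | c j = m ∧ j ≤ x ∧ ¬ j ≤ y} :=
      ⟨by rw [hinf, hj1, ha, min_self], inf_le_left.trans hj2, hcon⟩
    exact hja ((hmin h1 inf_le_left).trans inf_le_right)
  refine ⟨j, ⟨hj1, fun h => hj3 (h.trans (hlo y hy)), ?_⟩, hj2, hj3⟩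
  intro a b ha hb hab
  by_contra hcon
  rw [not_or] at hcon
  apply hj3
  have h1 := hd j a b hj1 ha hb
  rw [inf_eq_left.2 hab] at h1
  exact h1.trans (sup_le (hmin' a ha hcon.1) (hmin' b hb hcon.2))

theorem upper_of_fibre {m : ℕ} {lo : L} (hlom : c lo = m)
    (hinf : ∀ a b, c (a ⊓ b) = min (c a) (c b)) (hsup : ∀ a b, c (a ⊔ b) = max (c a) (c b))
    (U : Set {j : L // Pr c m lo j}) (hU : IsUpperSet U) :
    ∃ y, c y = m ∧ ∀ j : {j : L // Pr c m lo j}, ¬ j.1 ≤ y ↔ j ∈ U := by
  obtain ⟨t, ht, htop⟩ := exists_greatest {x : L | c x = m} ⟨lo, hlom⟩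
    (fun a ha b hb => by
      change c (a ⊔ b) = m
      rw [hsup, show c a = m from ha, show c b = m from hb, max_self])
  obtain ⟨y, ⟨hy1, hy2⟩, hmin⟩ := exists_least
    {y : L | c y = m ∧ ∀ j : {j : L // Pr c m lo j}, j ∉ U → j.1 ≤ y}
    ⟨t, ht, fun j _ => htop _ j.2.1⟩
    (fun a ha b hb => ⟨by rw [hinf, ha.1, hb.1, min_self],
      fun j hj => le_inf (ha.2 j hj) (hb.2 j hj)⟩)
  refine ⟨y, hy1, fun j => ⟨fun h => ?_, fun hj hjy => ?_⟩⟩
  · by_contra hj
    exact h (hy2 j hj)
  · obtain ⟨k, ⟨hk1, hk2⟩, hk3⟩ := exists_greatest {x : L | c x = m ∧ ¬ j.1 ≤ x}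
      ⟨lo, hlom, j.2.2.1⟩ (fun a ha b hb => ⟨by rw [hsup, ha.1, hb.1, max_self], fun h =>
        (j.2.2.2 a b ha.1 hb.1 h).elim ha.2 hb.2⟩)
    apply hk2
    refine hjy.trans (hmin k ⟨hk1, fun i hi => hk3 i.1 ⟨i.2.1, fun hji => hi (hU hji hj)⟩⟩)

theorem GR.step {n : ℕ} (hinf : ∀ a b, c (a ⊓ b) = min (c a) (c b))
    (hsup : ∀ a b, c (a ⊔ b) = max (c a) (c b))
    (hn : (∃ y, c y = n) ∨ ∀ y, ¬ c y ≤ n) (hn1 : ∃ y, c y = n + 1)
    (hd : ∀ a b d, c a = n + 1 → c b = n + 1 → c d = n + 1 → a ⊓ (b ⊔ d) ≤ (a ⊓ b) ⊔ (a ⊓ d))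
    (h : GR c n) : GR c (n + 1) := by
  classical
  obtain ⟨Q, hQg, hQf, P, h1, h2, h3, h4⟩ := h
  have hmono : ∀ a b, a ≤ b → c a ≤ c b := by
    intro a b hab
    have := hsup a b
    rw [sup_eq_right.2 hab] at this
    rw [this]
    exact le_max_left _ _
  obtain ⟨lo, hlom, hlo⟩ := exists_least {x : L | c x = n + 1} hn1
    (fun a ha b hb => by
      change c (a ⊓ b) = n + 1
      rw [hinf, show c a = n + 1 from ha, show c b = n + 1 from hb, min_self])
  have hlom : c lo = n + 1 := hlom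
  have hlo : ∀ x, c x = n + 1 → lo ≤ x := hlo
  let J : Type := {j : L // Pr c (n + 1) lo j}
  have hJf : Finite J := inferInstanceAs (Finite {j : L // Pr c (n + 1) lo j})
  -- the stabilisers
  have hB : ∀ j : J, ∃ B : Subgroup Q, ∀ x, c x ≤ n → (P x ≤ B ↔ ¬ j.1 ≤ x ⊔ lo) := by
    intro j
    rcases hn with ⟨y, hy⟩ | hno
    · have hy' : c (y ⊓ lo) = n := by rw [hinf, hy, hlom]; omega
      obtain ⟨k, ⟨hk1, hk2⟩, hk3⟩ := exists_greatest {x : L | c x ≤ n ∧ ¬ j.1 ≤ x ⊔ lo}
        ⟨y ⊓ lo, hy'.le, by rw [sup_eq_right.2 inf_le_right]; exact j.2.2.1⟩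
        (fun a ha b hb => ⟨by rw [hsup]; exact max_le ha.1 hb.1, fun hcon => by
          have e : a ⊔ b ⊔ lo = (a ⊔ lo) ⊔ (b ⊔ lo) := by
            rw [sup_sup_sup_comm, sup_idem]
          rw [e] at hcon
          have ca : c (a ⊔ lo) = n + 1 := by rw [hsup, hlom]; have := ha.1; omega
          have cb : c (b ⊔ lo) = n + 1 := by rw [hsup, hlom]; have := hb.1; omega
          exact (j.2.2.2 _ _ ca cb hcon).elim ha.2 hb.2⟩)
      have hkn : c k = n := by
        have := hmono _ _ (hk3 (y ⊓ lo) ⟨hy'.le, by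
          rw [sup_eq_right.2 inf_le_right]; exact j.2.2.1⟩)
        omega
      refine ⟨P k, fun x hx => ⟨fun hP hcon => ?_, fun hx' => ?_⟩⟩
      · have hxk : x ≤ k := h2 x k hkn.le (by omega) hP
        exact hk2 (hcon.trans (sup_le_sup_right hxk lo))
      · exact h1 x k hkn.le (hk3 x ⟨hx, hx'⟩)
    · exact ⟨⊤, fun x hx => absurd hx (hno x)⟩
  choose B hB using hB
  let Z : J → Type := fun j => (Q ⧸ B j) × Fin 3
  have hZf : ∀ j, Finite (Z j) := fun j => inferInstance
  have hΩf : Finite (∀ j, Z j) := Pi.finite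
  have hXf : Finite (XG Z) := Subtype.finite
  have hz3 : ∀ (j : J) (a b : Z j), ∃ d, d ≠ a ∧ d ≠ b := by
    intro j a b
    have hex : ∀ p q : Fin 3, ∃ r, r ≠ p ∧ r ≠ q := by decide
    obtain ⟨r, hr1, hr2⟩ := hex a.2 b.2
    exact ⟨(a.1, r), fun h => hr1 (congrArg Prod.snd h), fun h => hr2 (congrArg Prod.snd h)⟩
  let z : ∀ j, Z j := fun j => (((1 : Q) : Q ⧸ B j), 0)
  -- the action of `Q`
  let act : Q → Equiv.Perm (∀ j, Z j) := fun q => coordP fun j =>
    { toFun := fun u => (q • u.1, u.2)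
      invFun := fun u => (q⁻¹ • u.1, u.2)
      left_inv := fun u => by simp
      right_inv := fun u => by simp }
  have hact : ∀ q u j, act q u j = (q • (u j).1, (u j).2) := fun _ _ _ => rfl
  let al : Q →* XG Z :=
    { toFun := fun q => ⟨act q, coordP_mem _⟩
      map_one' := by
        apply Subtype.ext
        apply Equiv.ext
        intro u
        funext j
        change act 1 u j = u j
        rw [hact, one_smul]
      map_mul' := by
        intro p q
        apply Subtype.ext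
        apply Equiv.ext
        intro u
        funext j
        change act (p * q) u j = act p (act q u) j
        rw [hact, hact, hact, mul_smul] }
  have hal : ∀ q j, (al q).1 z j = (((q : Q) : Q ⧸ B j), 0) := by
    intro q j
    change (((q * 1 : Q) : Q ⧸ B j), (0 : Fin 3)) = _
    rw [mul_one]
  have halz : ∀ q j, (al q).1 z j = z j ↔ q ∈ B j := by
    intro q j
    rw [hal]
    change ((((q : Q) : Q ⧸ B j), (0 : Fin 3)) = ((((1 : Q) : Q ⧸ B j)), (0 : Fin 3))) ↔ _
    rw [Prod.mk.injEq, QuotientGroup.eq, mul_one, inv_mem_iff]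
    exact ⟨fun h => h.1, fun h => ⟨h, rfl⟩⟩
  have hUup : ∀ l : L, IsUpperSet {j : J | ¬ j.1 ≤ l} := by
    intro l j k hjk hj hk
    exact hj (le_trans hjk hk)
  have hJo : ∀ j : J, c j.1 = n + 1 := fun j => j.2.1
  let PS : L → Subgroup (Q × XG Z) := fun l =>
    { carrier := {x | EqOn {j : J | ¬ j.1 ≤ l} (x.2.1 z) z}
      one_mem' := fun j _ => rfl
      mul_mem' := by
        intro x y hx hy j hj
        have h5 := (x.2.2 _ (hUup l) (y.2.1 z) z).2 hy j hj
        exact h5.trans (hx j hj)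
      inv_mem' := by
        intro x hx j hj
        have h5 := ((x.2⁻¹).2 _ (hUup l) (x.2.1 z) z).2 hx j hj
        have h6 : (x.2⁻¹).1 (x.2.1 z) = z := x.2.1.symm_apply_apply z
        rw [h6] at h5
        exact h5.symm }
  have hPS : ∀ l x, x ∈ PS l ↔ EqOn {j : J | ¬ j.1 ≤ l} (x.2.1 z) z := fun _ _ => Iff.rfl
  let PG : L → Subgroup (Q × XG Z) := fun l => (P l).map (MonoidHom.prod (MonoidHom.id Q) al)
  have hPG : ∀ l x, x ∈ PG l ↔ x.1 ∈ P l ∧ x.2 = al x.1 := by
    intro l x
    constructor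
    · rintro ⟨q, hq, rfl⟩
      exact ⟨hq, rfl⟩
    · rintro ⟨h5, h6⟩
      exact ⟨x.1, h5, Prod.ext rfl h6.symm⟩
  let P' : L → Subgroup (Q × XG Z) := fun l => if c l ≤ n then PG l else PS l
  have hP'1 : ∀ l, c l ≤ n → P' l = PG l := fun l hl => if_pos hl
  have hP'2 : ∀ l, c l = n + 1 → P' l = PS l := fun l hl => if_neg (by omega)
  -- separation in the top fibre
  have hsep : ∀ x y, c x = n + 1 → c y = n + 1 → (∀ j : J, j.1 ≤ x → j.1 ≤ y) → x ≤ y := by
    intro x y hx hy hj
    by_contra hcon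
    obtain ⟨j, hj1, hj2, hj3⟩ := sep_prime hlo hinf hd hx hy hcon
    exact hj3 (hj ⟨j, hj1⟩ hj2)
  -- from below into the top fibre
  have hlow : ∀ a b, c a ≤ n → c b = n + 1 → (PG a ≤ PS b ↔ a ≤ b) := by
    intro a b ha hb
    have hca : c (a ⊔ lo) = n + 1 := by rw [hsup, hlom]; omega
    constructor
    · intro hle
      have h5 : a ⊔ lo ≤ b := by
        apply hsep _ _ hca hb
        intro j hj
        by_contra hjb
        have h6 : P a ≤ B j := by
          intro q hq
          have h7 : (q, al q) ∈ PS b := hle ((hPG a (q, al q)).2 ⟨hq, rfl⟩)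
          exact (halz q j).1 (h7 j hjb)
        exact (hB j a ha).1 h6 hj
      exact le_sup_left.trans h5
    · intro hab x hx
      obtain ⟨hx1, hx2⟩ := (hPG a x).1 hx
      intro j hj
      rw [hx2, halz]
      refine (hB j a ha).2 (fun hcon => hj (hcon.trans (sup_le hab (hlo b hb)))) hx1
  have hPSle : ∀ a b, c a = n + 1 → c b = n + 1 → (PS a ≤ PS b ↔ a ≤ b) := by
    intro a b ha hb
    constructor
    · intro hle
      apply hsep _ _ ha hb
      intro j hja
      by_contra hjb
      obtain ⟨d, hd1, -⟩ := hz3 j (z j) (z j)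
      let g : XG Z := ⟨coordP (Function.update (fun _ => 1) j (Equiv.swap (z j) d)), coordP_mem _⟩
      have hgj : g.1 z j = d := by
        change (Function.update (fun i => (1 : Equiv.Perm (Z i))) j (Equiv.swap (z j) d)) j (z j) = d
        rw [Function.update_self, Equiv.swap_apply_left]
      have hgi : ∀ i, i ≠ j → g.1 z i = z i := by
        intro i hi
        change (Function.update (fun i => (1 : Equiv.Perm (Z i))) j (Equiv.swap (z j) d)) i (z i) = z i
        rw [Function.update_of_ne hi]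
        rfl
      have h5 : ((1 : Q), g) ∈ PS a := by
        intro i hi
        apply hgi
        intro hij
        subst hij
        exact hi hja
      have h6 := hle h5 j hjb
      exact hd1 (hgj.symm.trans h6)
    · intro hab x hx j hj
      exact hx j fun h => hj (h.trans hab)
  refine ⟨Q × XG Z, inferInstance, inferInstance, P', ?_, ?_, ?_, ?_⟩
  · intro a b hb hab
    rcases Nat.lt_or_ge n (c b) with hb' | hb'
    · have hb1 : c b = n + 1 := by omega
      rw [hP'2 b hb1]
      rcases Nat.lt_or_ge n (c a) with ha' | ha'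
      · have ha1 : c a = n + 1 := by have := hmono a b hab; omega
        rw [hP'2 a ha1]
        exact (hPSle a b ha1 hb1).2 hab
      · rw [hP'1 a ha']
        exact (hlow a b ha' hb1).2 hab
    · rw [hP'1 b hb', hP'1 a ((hmono a b hab).trans hb')]
      exact Subgroup.map_mono (h1 a b hb' hab)
  · intro a b hb hab hle
    rcases Nat.lt_or_ge n (c b) with hb' | hb'
    · have hb1 : c b = n + 1 := by omega
      rw [hP'2 b hb1] at hle
      rcases Nat.lt_or_ge n (c a) with ha' | ha'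
      · have ha1 : c a = n + 1 := by omega
        rw [hP'2 a ha1] at hle
        exact (hPSle a b ha1 hb1).1 hle
      · rw [hP'1 a ha'] at hle
        exact (hlow a b ha' hb1).1 hle
    · rw [hP'1 b hb', hP'1 a (hab.trans hb')] at hle
      apply h2 a b hb' hab
      intro q hq
      exact ((hPG b (q, al q)).1 (hle ((hPG a (q, al q)).2 ⟨hq, rfl⟩))).1
  · intro a b S hab hb hS1 hS2
    rcases Nat.lt_or_ge n (c b) with hb' | hb'
    · have hb1 : c b = n + 1 := by omega
      have ha1 : c a = n + 1 := by omega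
      rw [hP'2 a ha1] at hS1
      let S1 : Subgroup (XG Z) := S.comap (MonoidHom.inr Q (XG Z))
      have hS1m : ∀ g, g ∈ S1 ↔ ((1 : Q), g) ∈ S := fun _ => Iff.rfl
      have hq1 : ∀ q : Q, (q, (1 : XG Z)) ∈ S := fun q => hS1 (fun j _ => rfl)
      obtain ⟨U, hU, hUS⟩ := mid_eq hz3 z S1 (by
        intro g hg
        exact (hS1m g).2 (hS1 (fun j _ => by rw [hg])))
      obtain ⟨y, hy1, hy2⟩ := upper_of_fibre hlom hinf hsup U hU
      refine ⟨y, hy1.trans ha1.symm, ?_⟩
      rw [hP'2 y hy1]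
      ext x
      have hxS : x ∈ S ↔ x.2 ∈ S1 := by
        rw [hS1m]
        have e : x = (x.1, (1 : XG Z)) * ((1 : Q), x.2) := by
          apply Prod.ext
          · exact (mul_one _).symm
          · exact (one_mul _).symm
        constructor
        · intro hx
          rw [e] at hx
          exact (S.mul_mem_cancel_left (hq1 x.1)).1 hx
        · intro hx
          rw [e]
          exact S.mul_mem (hq1 x.1) hx
      rw [hxS, hUS, hPS]
      constructor
      · intro h5 j hj
        exact h5 j ((hy2 j).2 hj)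
      · intro h5 j hj
        exact h5 j ((hy2 j).1 hj)
    · have ha' : c a ≤ n := by omega
      rw [hP'1 a ha'] at hS1
      rw [hP'1 b hb'] at hS2
      let S0 : Subgroup Q := S.comap (MonoidHom.prod (MonoidHom.id Q) al)
      have hS0 : ∀ q, q ∈ S0 ↔ (q, al q) ∈ S := fun _ => Iff.rfl
      obtain ⟨x, hx1, hx2⟩ := h3 a b S0 hab hb'
        (fun q hq => (hS0 q).2 (hS1 ((hPG a (q, al q)).2 ⟨hq, rfl⟩)))
        (fun q hq => ((hPG b (q, al q)).1 (hS2 ((hS0 q).1 hq))).1)
      refine ⟨x, hx1, ?_⟩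
      rw [hP'1 x (hx1.trans_le ha')]
      ext y
      rw [hPG, hx2, hS0]
      constructor
      · rintro ⟨h5, h6⟩
        rw [← h6] at h5
        exact h5
      · intro h5
        have h6 := ((hPG b y).1 (hS2 h5)).2
        refine ⟨?_, h6⟩
        rw [← h6]
        exact h5
  · intro t ht htop
    rw [hP'2 t ht, eq_top_iff]
    intro x _ j hj
    exact absurd (htop j.1 (hJo j).le) hj

end Step

/-- A finite chain is representable. -/
theorem representable_chain (K : Type) [LinearOrder K] [Finite K] [Nonempty K] :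
    Representable K := by
  refine representable_of_separated_seven K ?_
  have key : ∀ a b : K, a < b → ∃ (M : Type) (_ : Lattice M) (_ : Finite M) (f : LatticeHom K M),
      Nat.card M ≤ 7 ∧ f a ≠ f b := by
    intro a b hab
    refine ⟨Bool, inferInstance, inferInstance,
      { toFun := fun x => decide (b ≤ x)
        map_sup' := ?_
        map_inf' := ?_ }, ?_, ?_⟩
    · intro x y
      change decide (b ≤ x ⊔ y) = (decide (b ≤ x) || decide (b ≤ y))
      rw [← Bool.decide_or]
      exact decide_eq_decide.2 le_sup_iff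
    · intro x y
      change decide (b ≤ x ⊓ y) = (decide (b ≤ x) && decide (b ≤ y))
      rw [← Bool.decide_and]
      exact decide_eq_decide.2 le_inf_iff
    · rw [Nat.card_eq_fintype_card, Fintype.card_bool]
      norm_num
    · change decide (b ≤ a) ≠ decide (b ≤ b)
      rw [decide_eq_true (le_refl b), decide_eq_false (not_le.2 hab)]
      exact Bool.false_ne_true
  intro a b hab
  rcases lt_or_gt_of_ne hab with h | h
  · exact key a b h
  · obtain ⟨M, i1, i2, f, h1, h2⟩ := key b a h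
    exact ⟨M, i1, i2, f, h1, h2.symm⟩

/-- The subgroup lattice of a finite group is representable. -/
theorem representable_subgroup (Q : Type) [Group Q] [Finite Q] : Representable (Subgroup Q) := by
  refine Representable.of_iso ?_ (representable_interval Q ⊥)
  exact
    { toFun := fun S => ⟨S, bot_le⟩
      invFun := fun S => S.1
      left_inv := fun _ => rfl
      right_inv := fun _ => rfl
      map_rel_iff' := Iff.rfl }

/-- The fibre of `f` over `k` satisfies the distributive law. -/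
def FibreDistributive {L K : Type} [Lattice L] [Lattice K] (f : LatticeHom L K) (k : K) : Prop :=
  ∀ a b d, f a = k → f b = k → f d = k → a ⊓ (b ⊔ d) ≤ (a ⊓ b) ⊔ (a ⊓ d)

/-- The fibre of `f` over `k` is an interval `[H, G]` in the subgroup lattice of a finite
group. -/
def FibreGroupInterval {L K : Type} [Lattice L] [Lattice K] (f : LatticeHom L K) (k : K) : Prop :=
  ∃ (G : Type) (_ : Group G) (_ : Finite G) (H : Subgroup G),
    Nonempty ({l : L // f l = k} ≃o {S : Subgroup G // H ≤ S})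

theorem chain_of_GR {L K : Type} [Lattice L] [Finite L] [Nonempty L] [LinearOrder K]
    (f : LatticeHom L K) (hf : Function.Surjective f) (c : L → ℕ)
    (hc : ∀ a b, f a ≤ f b ↔ c a ≤ c b) (N : ℕ) (hN : ∀ a, c a ≤ N) (h : GR c N) :
    Representable L := by
  obtain ⟨Q, hQg, hQf, P, h1, h2, h3, -⟩ := h
  have hKf : Finite K := Finite.of_surjective f hf
  have hKn : Nonempty K := (inferInstance : Nonempty L).map f
  refine Representable.master f hf P (fun a b hab => h1 a b (hN b) hab)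
    (fun a b hab hP => h2 a b (hN b) ((hc a b).1 hab) hP) ?_ (representable_chain K)
    (representable_subgroup Q)
  intro a b S hab hS1 hS2
  have hab' : c a = c b := le_antisymm ((hc a b).1 hab.le) ((hc b a).1 hab.ge)
  obtain ⟨x, hx1, hx2⟩ := h3 a b S hab' (hN b) hS1 hS2
  exact ⟨x, le_antisymm ((hc x a).2 hx1.le) ((hc a x).2 hx1.ge), hx2⟩

theorem GR.induct {L : Type} [Lattice L] [Finite L] (c : L → ℕ)
    (hinf : ∀ a b, c (a ⊓ b) = min (c a) (c b)) (hsup : ∀ a b, c (a ⊔ b) = max (c a) (c b))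
    (m N : ℕ) (hm : GR c m) (hm' : (∃ y, c y = m) ∨ ∀ y, ¬ c y ≤ m)
    (hex : ∀ n, m < n → n ≤ N → ∃ y, c y = n)
    (hd : ∀ n, m < n → n ≤ N → ∀ a b d, c a = n → c b = n → c d = n →
      a ⊓ (b ⊔ d) ≤ (a ⊓ b) ⊔ (a ⊓ d)) :
    ∀ n, m ≤ n → n ≤ N → GR c n := by
  intro n hmn
  induction n, hmn using Nat.le_induction with
  | base => exact fun _ => hm
  | succ n hmn ih =>
    intro hnN
    refine GR.step hinf hsup ?_ (hex (n + 1) (by omega) hnN) (hd (n + 1) (by omega) hnN)
      (ih (by omega))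
    rcases Nat.eq_or_lt_of_le hmn with h | h
    · rw [← h]
      exact hm'
    · exact Or.inl (hex n h (by omega))

/-- a rank function of a finite chain -/
theorem exists_rank (K : Type) [LinearOrder K] [Finite K] :
    ∃ (N : ℕ) (r : K → ℕ), (∀ a b, a ≤ b ↔ r a ≤ r b) ∧ (∀ a, r a < N) ∧
      ∀ n, n < N → ∃ a, r a = n := by
  cases nonempty_fintype K
  let e : Fin (Fintype.card K) ≃o K := Fintype.orderIsoFinOfCardEq K rfl
  refine ⟨Fintype.card K, fun a => (e.symm a).val, fun a b => ?_, fun a => (e.symm a).isLt,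
    fun n hn => ⟨e ⟨n, hn⟩, ?_⟩⟩
  · rw [← Fin.le_def]
    exact (e.symm.le_iff_le).symm
  · simp

/-- **Distributive fibres over a chain.** -/
theorem representable_of_chain {L K : Type} [Lattice L] [Finite L] [Nonempty L] [LinearOrder K]
    (f : LatticeHom L K) (hf : Function.Surjective f)
    (h0 : ∀ k, (∀ k', k ≤ k') → FibreDistributive f k ∨ FibreGroupInterval f k)
    (h1 : ∀ k, (∃ k', k' < k) → FibreDistributive f k) : Representable L := by
  have hKf : Finite K := Finite.of_surjective f hf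
  obtain ⟨N, r, hr, hrN, hrs⟩ := exists_rank K
  have hri : ∀ a b, r a = r b → a = b := fun a b h =>
    le_antisymm ((hr a b).2 h.le) ((hr b a).2 h.ge)
  have hrinf : ∀ a b, r (a ⊓ b) = min (r a) (r b) := by
    intro a b
    rcases le_total a b with h | h
    · rw [inf_eq_left.2 h, min_eq_left ((hr a b).1 h)]
    · rw [inf_eq_right.2 h, min_eq_right ((hr b a).1 h)]
  have hrsup : ∀ a b, r (a ⊔ b) = max (r a) (r b) := by
    intro a b
    rcases le_total a b with h | h
    · rw [sup_eq_right.2 h, max_eq_right ((hr a b).1 h)]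
    · rw [sup_eq_left.2 h, max_eq_left ((hr b a).1 h)]
  obtain ⟨l0⟩ := (inferInstance : Nonempty L)
  have hN0 : 0 < N := (Nat.zero_le _).trans_lt (hrN (f l0))
  obtain ⟨k0, hk0⟩ := hrs 0 hN0
  have hk0' : ∀ k, k0 ≤ k := fun k => (hr _ _).2 (by rw [hk0]; exact Nat.zero_le _)
  have hinf : ∀ a b, r (f (a ⊓ b)) = min (r (f a)) (r (f b)) := fun a b => by
    rw [map_inf, hrinf]
  have hsup : ∀ a b, r (f (a ⊔ b)) = max (r (f a)) (r (f b)) := fun a b => by
    rw [map_sup, hrsup]
  have hex : ∀ n, n < N → ∃ y : L, r (f y) = n := by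
    intro n hn
    obtain ⟨k, hk⟩ := hrs n hn
    obtain ⟨y, hy⟩ := hf k
    exact ⟨y, by rw [hy, hk]⟩
  have hdist : ∀ n, 0 < n → n < N → ∀ a b d, r (f a) = n → r (f b) = n → r (f d) = n →
      a ⊓ (b ⊔ d) ≤ (a ⊓ b) ⊔ (a ⊓ d) := by
    intro n hn0 hn a b d ha hb hd
    refine h1 (f a) ⟨k0, ?_⟩ a b d rfl (hri _ _ (hb.trans ha.symm)) (hri _ _ (hd.trans ha.symm))
    rw [← not_le, hr]
    omega
  rcases h0 k0 hk0' with hd0 | ⟨G, hGg, hGf, H, ⟨e⟩⟩
  · -- all fibres distributive
    refine chain_of_GR f hf (fun l => r (f l) + 1) (fun a b => by rw [hr]; omega) N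
      (fun a => hrN _) ?_
    refine GR.induct (fun l => r (f l) + 1) (fun a b => ?_) (fun a b => ?_) 0 N ?_ ?_ ?_ ?_ N
      (Nat.zero_le _) le_rfl
    · change r (f (a ⊓ b)) + 1 = min (r (f a) + 1) (r (f b) + 1)
      rw [hinf]; omega
    · change r (f (a ⊔ b)) + 1 = max (r (f a) + 1) (r (f b) + 1)
      rw [hsup]; omega
    · refine ⟨Equiv.Perm (Fin 1), inferInstance, inferInstance, fun _ => ⊤, ?_, ?_, ?_, ?_⟩
      · intro a b hb
        exact absurd hb (Nat.not_succ_le_zero _)
      · intro a b hb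
        exact absurd hb (Nat.not_succ_le_zero _)
      · intro a b S _ hb
        exact absurd hb (Nat.not_succ_le_zero _)
      · intro t ht
        exact absurd ht (Nat.succ_ne_zero _)
    · exact Or.inr fun y => by omega
    · intro n hn0 hn
      obtain ⟨y, hy⟩ := hex (n - 1) (by omega)
      exact ⟨y, by change r (f y) + 1 = n; omega⟩
    · intro n hn0 hn a b d ha hb hd
      have ha' : r (f a) = n - 1 := by change r (f a) + 1 = n at ha; omega
      have hb' : r (f b) = n - 1 := by change r (f b) + 1 = n at hb; omega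
      have hd' : r (f d) = n - 1 := by change r (f d) + 1 = n at hd; omega
      rcases Nat.eq_zero_or_pos (n - 1) with h | h
      · exact hd0 a b d (hri _ _ (by omega)) (hri _ _ (by omega)) (hri _ _ (by omega))
      · exact hdist (n - 1) h (by omega) a b d ha' hb' hd'
  · -- the least fibre is a group interval
    refine chain_of_GR f hf (fun l => r (f l)) (fun a b => hr _ _) (N - 1)
      (fun a => by have := hrN (f a); omega) ?_
    refine GR.induct (fun l => r (f l)) hinf hsup 0 (N - 1) ?_ (Or.inl (hex 0 hN0))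
      (fun n _ hn => hex n (by omega)) (fun n hn0 hn => hdist n hn0 (by omega)) (N - 1)
      (Nat.zero_le _) le_rfl
    classical
    have hfk : ∀ l : L, r (f l) ≤ 0 → f l = k0 := fun l hl => hri _ _ (by omega)
    let P : L → Subgroup G := fun l => if h : f l = k0 then (e ⟨l, h⟩).1 else ⊤
    have hP : ∀ l (h : f l = k0), P l = (e ⟨l, h⟩).1 := fun l h => dif_pos h
    have hPle : ∀ a b (ha : f a = k0) (hb : f b = k0), P a ≤ P b ↔ a ≤ b := by
      intro a b ha hb
      rw [hP a ha, hP b hb]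
      exact e.le_iff_le (x := ⟨a, ha⟩) (y := ⟨b, hb⟩)
    refine ⟨G, hGg, hGf, P, ?_, ?_, ?_, ?_⟩
    · intro a b hb hab
      have hb' := hfk b hb
      have ha' : f a = k0 := by
        apply hfk
        have h5 : r (f (a ⊔ b)) = max (r (f a)) (r (f b)) := hsup a b
        rw [sup_eq_right.2 hab, hb', hk0] at h5
        omega
      exact (hPle a b ha' hb').2 hab
    · intro a b hb hab hle
      exact (hPle a b (hfk a (hab.trans hb)) (hfk b hb)).1 hle
    · intro a b S hab hb hS1 hS2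
      have ha' : f a = k0 := hfk a (hab.trans_le hb)
      have hHS : H ≤ S := by
        rw [hP a ha'] at hS1
        exact (e ⟨a, ha'⟩).2.trans hS1
      refine ⟨(e.symm ⟨S, hHS⟩).1, ?_, ?_⟩
      · change r (f (e.symm ⟨S, hHS⟩).1) = r (f a)
        rw [(e.symm ⟨S, hHS⟩).2, ha']
      · rw [hP _ (e.symm ⟨S, hHS⟩).2]
        have h6 : (⟨(e.symm ⟨S, hHS⟩).1, (e.symm ⟨S, hHS⟩).2⟩ : {l : L // f l = k0}) =
            e.symm ⟨S, hHS⟩ := rfl
        rw [h6, OrderIso.apply_symm_apply]
    · intro t ht htop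
      have ht' : f t = k0 := hfk t ht.le
      rw [hP t ht', eq_top_iff]
      have h5 : (e.symm ⟨⊤, le_top⟩).1 ≤ t := by
        apply htop
        change r (f (e.symm ⟨⊤, le_top⟩).1) ≤ 0
        rw [(e.symm ⟨⊤, le_top⟩).2, hk0]
      have h6 : e.symm ⟨⊤, le_top⟩ ≤ ⟨t, ht'⟩ := h5
      have h7 : (⟨⊤, le_top⟩ : {S : Subgroup G // H ≤ S}) ≤ e ⟨t, ht'⟩ := by
        rwa [← e.symm_apply_le]
      exact h7

end Vale.Agent.P183.H996
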