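import Mathlib.GroupTheory.SemidirectProduct
import Mathlib.GroupTheory.Coset.Basic
import Mathlib.GroupTheory.GroupAction.Quotient
import Vale.Agent.P183.Bdl.B2

/-!
The class of intervals `[H, G]` in the subgroup lattices of finite groups is closed under duals
(Kurzweil).
-/

set_option linter.all false

namespace Vale.Agent.P183.H996

open Vale.Agent.P183

/-- The order is an interval `[H, G]` in the subgroup lattice of a finite group. -/
def GroupInterval (L : Type) [LE L] : Prop :=
  ∃ (G : Type) (_ : Group G) (_ : Finite G) (H : Subgroup G),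
    Nonempty (L ≃o {S : Subgroup G // H ≤ S})

theorem GroupInterval.of_iso {L L' : Type} [LE L] [LE L'] (e : L' ≃o L) (h : GroupInterval L) :
    GroupInterval L' := by
  obtain ⟨G, i1, i2, H, ⟨f⟩⟩ := h
  exact ⟨G, i1, i2, H, ⟨e.trans f⟩⟩

/-- The action on functions. -/
def shift (G A S : Type) [Group G] [Group S] [MulAction G A] : G →* MulAut (A → S) where
  toFun g :=
    { toFun := fun v x => v (g⁻¹ • x)
      invFun := fun v x => v (g • x)
      left_inv := fun v => by funext x; simp
      right_inv := fun v => by funext x; simp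
      map_mul' := fun _ _ => rfl }
  map_one' := by
    ext v x
    change v ((1 : G)⁻¹ • x) = v x
    rw [inv_one, one_smul]
  map_mul' a b := by
    ext v x
    change v ((a * b)⁻¹ • x) = v (b⁻¹ • a⁻¹ • x)
    rw [mul_inv_rev, mul_smul]

theorem shift_apply {G A S : Type} [Group G] [Group S] [MulAction G A] (g : G) (v : A → S)
    (x : A) : shift G A S g v x = v (g⁻¹ • x) := rfl

/-- **Duality for group intervals** (Kurzweil). -/
theorem GroupInterval.dual {L : Type} [LE L] (h : GroupInterval L) :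
    GroupInterval Lᵒᵈ := by
  classical
  obtain ⟨G, i1, i2, H, ⟨e⟩⟩ := h
  let S : Type := alternatingGroup (Fin 5)
  have : IsSimpleGroup S := alternatingGroup.isSimpleGroup (by simp)
  have hS : ∃ a b : S, a * b ≠ b * a := alternatingFive_noncomm
  have : Nontrivial S := IsSimpleGroup.toNontrivial
  obtain ⟨t, ht⟩ := exists_ne (1 : S)
  let A : Type := G ⧸ H
  let W : Type := (A → S) ⋊[shift G A S] G
  have hAf : Finite A := inferInstanceAs (Finite (G ⧸ H))
  have hSf : Finite S := inferInstanceAs (Finite (alternatingGroup (Fin 5)))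
  have hWf : Finite W := Finite.of_equiv _ (SemidirectProduct.equivProd (φ := shift G A S)).symm
  -- the bottom
  let D : Subgroup W :=
    { carrier := {w | ∃ s : S, w.left = fun _ => s}
      one_mem' := ⟨1, rfl⟩
      mul_mem' := by
        rintro v w ⟨s, hs⟩ ⟨s', hs'⟩
        refine ⟨s * s', ?_⟩
        rw [SemidirectProduct.mul_left, hs, hs']
        rfl
      inv_mem' := by
        rintro v ⟨s, hs⟩
        refine ⟨s⁻¹, ?_⟩
        rw [SemidirectProduct.inv_left, hs]
        rfl }
  have hD : ∀ w, w ∈ D ↔ ∃ s : S, w.left = fun _ => s := fun _ => Iff.rfl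
  let X : {T : Subgroup G // H ≤ T} → Subgroup W := fun T =>
    { carrier := {w | ∀ a : G, ∀ s ∈ T.1, w.left ((a : G) : G ⧸ H) = w.left ((a * s : G) : G ⧸ H)}
      one_mem' := fun _ _ _ => rfl
      mul_mem' := by
        intro v w hv hw a s hs
        have h1 : ∀ b : G, (v * w).left ((b : G) : G ⧸ H) =
            v.left ((b : G) : G ⧸ H) * w.left ((v.right⁻¹ * b : G) : G ⧸ H) := fun _ => rfl
        rw [h1, h1, hv a s hs, ← mul_assoc, hw (v.right⁻¹ * a) s hs]
      inv_mem' := by
        intro v hv a s hs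
        have h1 : ∀ b : G, (v⁻¹).left ((b : G) : G ⧸ H) =
            (v.left ((v.right⁻¹⁻¹ * b : G) : G ⧸ H))⁻¹ := fun _ => rfl
        rw [h1, h1, ← mul_assoc, hv (v.right⁻¹⁻¹ * a) s hs] }
  have hX : ∀ T w, w ∈ X T ↔ ∀ a : G, ∀ s ∈ T.1,
      w.left ((a : G) : G ⧸ H) = w.left ((a * s : G) : G ⧸ H) := fun _ _ => Iff.rfl
  have hDX : ∀ T, D ≤ X T := by
    rintro T w ⟨s, hs⟩ a r hr
    rw [hs]
  have hXle : ∀ T T', X T ≤ X T' ↔ T' ≤ T := by
    intro T T'
    constructor
    · intro h s hs
      let u : A → S := fun x => if ∃ b ∈ T.1, x = ((b : G) : G ⧸ H) then t else 1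
      have hu : ∀ b : G, (∃ c ∈ T.1, ((b : G) : G ⧸ H) = ((c : G) : G ⧸ H)) ↔ b ∈ T.1 := by
        intro b
        constructor
        · rintro ⟨c, hc, hbc⟩
          have h1 : b⁻¹ * c ∈ T.1 := T.2 (QuotientGroup.eq.1 hbc)
          have h2 : b = c * (b⁻¹ * c)⁻¹ := by group
          rw [h2]
          exact T.1.mul_mem hc (T.1.inv_mem h1)
        · intro hb
          exact ⟨b, hb, rfl⟩
      have hu' : ∀ b : G, u ((b : G) : G ⧸ H) = if b ∈ T.1 then t else 1 := by
        intro b
        change (if ∃ c ∈ T.1, ((b : G) : G ⧸ H) = ((c : G) : G ⧸ H) then t else 1) = _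
        simp only [hu]
      have h1 : (SemidirectProduct.inl u : W) ∈ X T := by
        intro a r hr
        rw [SemidirectProduct.left_inl, hu', hu', T.1.mul_mem_cancel_right hr]
      have h2 := h h1 1 s hs
      rw [SemidirectProduct.left_inl, hu', hu', one_mul, if_pos T.1.one_mem] at h2
      by_contra hc
      rw [if_neg hc] at h2
      exact ht h2
    · intro h w hw a s hs
      exact hw a s (h hs)
  let g : {T : Subgroup G // H ≤ T}ᵒᵈ → {Y : Subgroup W // D ≤ Y} := fun T =>
    ⟨X (OrderDual.ofDual T), hDX _⟩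
  have hg : ∀ T T', g T ≤ g T' ↔ T ≤ T' := fun T T' => hXle _ _
  have hgs : Function.Surjective g := by
    rintro ⟨Y, hY⟩
    let K : Subgroup (A → S) := Y.comap SemidirectProduct.inl
    have hK : ∀ v, v ∈ K ↔ (SemidirectProduct.inl v : W) ∈ Y := fun _ => Iff.rfl
    have hKD : ∀ s : S, (fun _ => s) ∈ K := fun s => hY ⟨s, rfl⟩
    have hr : ∀ a : G, (SemidirectProduct.inr a : W) ∈ Y := fun a => hY ⟨1, rfl⟩
    have hKY : ∀ w : W, w ∈ Y ↔ w.left ∈ K := by
      intro w
      rw [hK]
      conv_lhs => rw [← SemidirectProduct.inl_left_mul_inr_right w]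
      exact Y.mul_mem_cancel_right (hr _)
    have hKi : ∀ a : G, ∀ v ∈ K, (fun x => v (a⁻¹ • x)) ∈ K := by
      intro a v hv
      rw [hK] at hv ⊢
      have h1 := Y.mul_mem (Y.mul_mem (hr a) hv) (hr a⁻¹)
      have h2 : (SemidirectProduct.inl (fun x => v (a⁻¹ • x)) : W) =
          SemidirectProduct.inr a * SemidirectProduct.inl v * SemidirectProduct.inr a⁻¹ := by
        rw [← SemidirectProduct.inl_aut]
        rfl
      rw [h2]
      exact h1
    let θ : A → A → Prop := fun x y => ∀ ψ ∈ K, ψ x = ψ y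
    have hθi : ∀ (a : G) (x y : A), θ x y → θ (a • x) (a • y) := by
      intro a x y hxy ψ hψ
      have h1 := hxy _ (hKi a⁻¹ ψ hψ)
      simpa using h1
    let T : Subgroup G :=
      { carrier := {s | θ ((1 : G) : G ⧸ H) ((s : G) : G ⧸ H)}
        one_mem' := fun ψ _ => rfl
        mul_mem' := by
          intro a b ha hb ψ hψ
          have h1 := hθi a _ _ hb ψ hψ
          have h2 : a • (((1 : G) : G ⧸ H) : A) = ((a : G) : G ⧸ H) := by
            change ((a * 1 : G) : G ⧸ H) = _
            rw [mul_one]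
          rw [h2] at h1
          exact (ha ψ hψ).trans h1
        inv_mem' := by
          intro a ha ψ hψ
          have h1 := hθi a⁻¹ _ _ ha ψ hψ
          have h2 : a⁻¹ • (((1 : G) : G ⧸ H) : A) = ((a⁻¹ : G) : G ⧸ H) := by
            change ((a⁻¹ * 1 : G) : G ⧸ H) = _
            rw [mul_one]
          have h3 : a⁻¹ • (((a : G) : G ⧸ H) : A) = ((1 : G) : G ⧸ H) := by
            change ((a⁻¹ * a : G) : G ⧸ H) = _
            rw [inv_mul_cancel]
          rw [h2, h3] at h1
          exact h1.symm }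
    have hT : ∀ s, s ∈ T ↔ ∀ ψ ∈ K, ψ ((1 : G) : G ⧸ H) = ψ ((s : G) : G ⧸ H) := fun _ => Iff.rfl
    have hHT : H ≤ T := by
      intro s hs ψ _
      have h1 : (((1 : G) : G ⧸ H)) = ((s : G) : G ⧸ H) := by
        rw [QuotientGroup.eq, inv_one, one_mul]
        exact hs
      rw [h1]
    refine ⟨OrderDual.toDual ⟨T, hHT⟩, ?_⟩
    apply Subtype.ext
    ext w
    change w ∈ X ⟨T, hHT⟩ ↔ w ∈ Y
    rw [hX, hKY]
    constructor
    · intro hw
      refine mem_of_const_on_classes hS K hKD w.left ?_
      intro x y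
      induction x using QuotientGroup.induction_on with
      | _ a =>
      induction y using QuotientGroup.induction_on with
      | _ b =>
      intro hab
      have h1 : a⁻¹ * b ∈ T := by
        have h2 := hθi a⁻¹ _ _ hab
        have h3 : a⁻¹ • (((a : G) : G ⧸ H) : A) = ((1 : G) : G ⧸ H) := by
          change ((a⁻¹ * a : G) : G ⧸ H) = _
          rw [inv_mul_cancel]
        rw [h3] at h2
        exact h2
      have h4 := hw a _ h1
      rwa [mul_inv_cancel_left] at h4
    · intro hw a s hs
      have h1 := hθi a _ _ ((hT s).1 hs) w.left hw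
      have h2 : a • (((1 : G) : G ⧸ H) : A) = ((a : G) : G ⧸ H) := by
        change ((a * 1 : G) : G ⧸ H) = _
        rw [mul_one]
      rw [h2] at h1
      exact h1
  refine ⟨W, inferInstance, hWf, D, ⟨e.dual.trans
    (RelIso.ofSurjective (OrderEmbedding.ofMapLEIff g hg) hgs)⟩⟩

end Vale.Agent.P183.H996
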