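import Mathlib.Order.Fin.Basic
import Mathlib.GroupTheory.GroupAction.Quotient
import Mathlib.Algebra.Group.Subgroup.Lattice
import Vale.Agent.P183.H996.Chain
import Vale.Agent.P183.H996.Dual

/-!
Eight-element lattices with a homomorphism onto the two-element chain: the least fibre is an
interval `[H, G]` in the subgroup lattice of an explicit finite group, or distributive.
-/

set_option linter.all false

namespace Vale.Agent.P183.H996

open Vale.Agent.P183

/-! ### Intervals in subgroup lattices from certificates -/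

/-- `fs` are tables of permutations of `{0, ..., N - 1}` which generate a transitive group, `ths`
are its systems of blocks. -/
def grpCheck (n b N fuel : ℕ) (fs ths : List (List ℕ)) : Bool :=
  Nat.blt 0 N && Nat.blt 0 n && isPO n b &&
  (fs.all fun f => allN N fun a => Nat.blt (get f a) N) &&
  (fs.all fun f => allN N fun a => allN a fun c => !(get f a == get f c)) &&
  (allN N fun a => a == 0 || anyN a fun c => fs.any fun f => get f c == a) &&
  (allN n fun x => ((getL ths x).length == N) && allN N fun a =>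
    Nat.blt (get (getL ths x) a) N && (get (getL ths x) (get (getL ths x) a) == get (getL ths x) a)) &&
  (allN n fun x => fs.all fun f => allN N fun a =>
    get (getL ths x) (get f a) == get (getL ths x) (get f (get (getL ths x) a))) &&
  (allN n fun x => allN n fun y => ordB n b x y == finer N (getL ths x) (getL ths y)) &&
  (allN N fun j =>
    (anyN n fun x => (get (getL ths x) 0 == get (getL ths x) j) &&
      finer N (getL ths x) (cl fs fuel (List.range N) [(0, j)]))) &&
  (allN n fun x => allN n fun y =>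
    (anyN n fun z => ordB n b x z && ordB n b y z &&
      finer N (getL ths z) (cl [] fuel (getL ths x)
        ((List.range N).map fun a => (a, get (getL ths y) a)))))

theorem FO.group_interval {n b : ℕ} (N fuel : ℕ) (fs ths : List (List ℕ))
    (h : grpCheck n b N fuel fs ths = true) : GroupInterval (FO n b) := by
  classical
  simp only [grpCheck, Bool.and_eq_true] at h
  obtain ⟨⟨⟨⟨⟨⟨⟨⟨⟨⟨hN, hn⟩, hpo⟩, hfsN⟩, hinj⟩, htrans⟩, htab⟩, hpres⟩, hord⟩, hprin⟩, hjoin⟩ := h
  let _ : PartialOrder (FO n b) := FO.po hpo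
  have hN' : 0 < N := by simpa using hN
  have hn' : 0 < n := by simpa using hn
  have hlt : ∀ f ∈ fs, ∀ a, a < N → get f a < N := by
    intro f hf a ha
    have := allN_iff.1 (List.all_eq_true.1 hfsN f hf) a ha
    simpa using this
  have hinj' : ∀ f ∈ fs, ∀ a c, a < N → c < N → get f a = get f c → a = c := by
    intro f hf
    have key : ∀ a c, a < N → c < a → get f a ≠ get f c := by
      intro a c ha hc
      have h1 := allN_iff.1 (allN_iff.1 (List.all_eq_true.1 hinj f hf) a ha) c hc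
      simpa using h1
    intro a c ha hc hac
    rcases lt_trichotomy a c with h1 | h1 | h1
    · exact absurd hac.symm (key c a hc h1)
    · exact h1
    · exact absurd hac (key a c ha h1)
  have htab' : ∀ x, x < n → (getL ths x).length = N ∧ ∀ a, a < N → get (getL ths x) a < N ∧
      get (getL ths x) (get (getL ths x) a) = get (getL ths x) a := by
    intro x hx
    have h1 := allN_iff.1 htab x hx
    rw [Bool.and_eq_true] at h1
    refine ⟨by simpa using h1.1, fun a ha => ?_⟩
    have h2 := allN_iff.1 h1.2 a ha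
    rw [Bool.and_eq_true] at h2
    exact ⟨by simpa using h2.1, by simpa using h2.2⟩
  have hfiner : ∀ (x : ℕ), x < n → ∀ L : List ℕ, finer N (getL ths x) L = true →
      ∀ a c, a < N → c < N → get (getL ths x) a = get (getL ths x) c → get L a = get L c := by
    intro x hx L hL a c ha hc hac
    have h1 := allN_iff.1 hL a ha
    have h2 := allN_iff.1 hL c hc
    rw [beq_iff_eq] at h1 h2
    rw [h1, h2, hac]
  let o : Fin N := ⟨0, hN'⟩
  let hat : List ℕ → Fin N → Fin N := fun f a => if h : get f a < N then ⟨get f a, h⟩ else a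
  have hhat : ∀ f ∈ fs, ∀ a : Fin N, (hat f a : ℕ) = get f a := by
    intro f hf a
    simp only [hat, dif_pos (hlt f hf a a.2)]
  have hhatinj : ∀ f ∈ fs, Function.Injective (hat f) := by
    intro f hf a c hac
    apply Fin.ext
    apply hinj' f hf a c a.2 c.2
    rw [← hhat f hf, ← hhat f hf, hac]
  -- the group
  let gset : Set (Equiv.Perm (Fin N)) := {p | ∃ f ∈ fs, ∀ a, p a = hat f a}
  let G : Subgroup (Equiv.Perm (Fin N)) := Subgroup.closure gset
  have hgen : ∀ f ∈ fs, ∃ p : G, ∀ a, p.1 a = hat f a := by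
    intro f hf
    exact ⟨⟨Equiv.ofBijective (hat f) (Finite.injective_iff_bijective.1 (hhatinj f hf)),
      Subgroup.subset_closure ⟨f, hf, fun a => rfl⟩⟩, fun a => rfl⟩
  -- transitivity
  have htr : ∀ a : ℕ, (ha : a < N) → ∃ g : G, g.1 o = ⟨a, ha⟩ := by
    intro a
    induction a using Nat.strong_induction_on with
    | _ a ih =>
      intro ha
      have h1 := allN_iff.1 htrans a ha
      rw [Bool.or_eq_true] at h1
      rcases h1 with h1 | h1
      · refine ⟨1, Fin.ext ?_⟩
        change 0 = a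
        exact (by simpa using h1 : a = 0).symm
      · obtain ⟨c, hc, hc'⟩ := anyN_iff.1 h1
        obtain ⟨f, hf, hf'⟩ := List.any_eq_true.1 hc'
        rw [beq_iff_eq] at hf'
        obtain ⟨g, hg⟩ := ih c hc (hc.trans ha)
        obtain ⟨p, hp⟩ := hgen f hf
        refine ⟨p * g, Fin.ext ?_⟩
        change ((p.1 (g.1 o) : Fin N) : ℕ) = a
        rw [hg, hp, hhat f hf]
        exact hf'
  -- congruences are invariant
  have hinv : ∀ (ρ : Setoid (Fin N)), (∀ f ∈ fs, ∀ a a', ρ a a' → ρ (hat f a) (hat f a')) →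
      ∀ g : G, ∀ a a', ρ (g.1 a) (g.1 a') ↔ ρ a a' := by
    intro ρ hρ
    have hfw : ∀ f ∈ fs, ∀ a a', ρ (hat f a) (hat f a') ↔ ρ a a' := by
      intro f hf a a'
      refine ⟨fun h => ?_, hρ f hf a a'⟩
      -- a power of `hat f` is the inverse
      let p : Equiv.Perm (Fin N) :=
        Equiv.ofBijective (hat f) (Finite.injective_iff_bijective.1 (hhatinj f hf))
      have hpk : ∀ k : ℕ, ∀ a a', ρ a a' → ρ ((p ^ k) a) ((p ^ k) a') := by
        intro k
        induction k with
        | zero => exact fun a a' h => h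
        | succ k ih =>
          intro a a' h
          rw [pow_succ']
          exact hρ f hf _ _ (ih a a' h)
      obtain ⟨k, hk, hpk1⟩ := isOfFinOrder_iff_pow_eq_one.1 (isOfFinOrder_of_finite p)
      have h5 := hpk (k - 1) _ _ h
      have h6 : ∀ a, (p ^ (k - 1)) (hat f a) = a := by
        intro a
        have h7 : (p ^ (k - 1) * p) a = a := by
          rw [← pow_succ, Nat.sub_add_cancel hk, hpk1]
          rfl
        exact h7
      rwa [h6, h6] at h5
    intro g
    have key : ∀ p : Equiv.Perm (Fin N), p ∈ G → ∀ a a', ρ (p a) (p a') ↔ ρ a a' := by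
      intro p hp
      induction hp using Subgroup.closure_induction with
      | mem p hp =>
        obtain ⟨f, hf, hpf⟩ := hp
        intro a a'
        rw [hpf, hpf]
        exact hfw f hf a a'
      | one => exact fun a a' => Iff.rfl
      | mul p q _ _ ihp ihq =>
        intro a a'
        exact (ihp (q a) (q a')).trans (ihq a a')
      | inv p _ ih =>
        intro a a'
        have h8 := ih (p⁻¹ a) (p⁻¹ a')
        have h9 : ∀ a, p (p⁻¹ a) = a := fun a => p.apply_symm_apply a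
        rw [h9, h9] at h8
        exact h8.symm
    exact key g.1 g.2
  let th : FO n b → Setoid (Fin N) := fun x => tabS N (getL ths x.v)
  have hthf : ∀ x : FO n b, ∀ f ∈ fs, ∀ a a', th x a a' → th x (hat f a) (hat f a') := by
    rintro x f hf a a' haa'
    change get (getL ths x.v) (hat f a) = get (getL ths x.v) (hat f a')
    rw [hhat f hf, hhat f hf]
    have h1 := allN_iff.1 (List.all_eq_true.1 (allN_iff.1 hpres x.v x.v_lt) f hf)
    have h2 := h1 a a.2
    have h3 := h1 a' a'.2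
    rw [beq_iff_eq] at h2 h3
    rw [h2, h3, show get (getL ths x.v) a = get (getL ths x.v) a' from haa']
  have hthG : ∀ x : FO n b, ∀ g : G, ∀ a a', th x (g.1 a) (g.1 a') ↔ th x a a' :=
    fun x => hinv (th x) (hthf x)
  have hle : ∀ x y : FO n b, th x ≤ th y ↔ x ≤ y := by
    intro x y
    have h1 := allN_iff.1 (allN_iff.1 hord x.v x.v_lt) y.v y.v_lt
    rw [beq_iff_eq] at h1
    rw [FO.le_def, h1]
    constructor
    · intro h
      rw [finer, allN_iff]
      intro a ha
      rw [beq_iff_eq]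
      obtain ⟨h2, h3⟩ := (htab' x.v x.v_lt).2 a ha
      exact h (show th x ⟨a, ha⟩ ⟨get (getL ths x.v) a, h2⟩ from h3.symm)
    · intro h a c hac
      exact hfiner x.v x.v_lt _ h a c a.2 c.2 hac
  let H : Subgroup G :=
    { carrier := {g | g.1 o = o}
      one_mem' := rfl
      mul_mem' := by
        intro p q hp hq
        change p.1 (q.1 o) = o
        rw [show q.1 o = o from hq]
        exact hp
      inv_mem' := by
        intro p hp
        change p.1⁻¹ o = o
        have h1 : p.1⁻¹ (p.1 o) = o := p.1.symm_apply_apply o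
        rwa [show p.1 o = o from hp] at h1 }
  let St : FO n b → Subgroup G := fun x =>
    { carrier := {g | th x o (g.1 o)}
      one_mem' := Setoid.refl' (th x) o
      mul_mem' := by
        intro p q hp hq
        change th x o (p.1 (q.1 o))
        exact Setoid.trans' _ hp ((hthG x p o (q.1 o)).2 hq)
      inv_mem' := by
        intro p hp
        change th x o (p.1⁻¹ o)
        have h1 := (hthG x p⁻¹ o (p.1 o)).2 hp
        have h2 : (p⁻¹ : G).1 (p.1 o) = o := p.1.symm_apply_apply o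
        rw [h2] at h1
        exact Setoid.symm' _ h1 }
  have hSt : ∀ x g, g ∈ St x ↔ th x o (g.1 o) := fun _ _ => Iff.rfl
  have hHSt : ∀ x, H ≤ St x := by
    intro x g hg
    rw [hSt, show g.1 o = o from hg]
  have hStle : ∀ x y, St x ≤ St y ↔ x ≤ y := by
    intro x y
    rw [← hle]
    constructor
    · intro h i j hij
      obtain ⟨g, hg⟩ := htr i i.2
      obtain ⟨k, hk⟩ := htr j j.2
      have hg' : g.1 o = i := hg
      have hk' : k.1 o = j := hk
      have e1 : g.1 ((g⁻¹ * k : G).1 o) = j := by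
        rw [← hk']
        exact g.1.apply_symm_apply (k.1 o)
      have h1 : g⁻¹ * k ∈ St x := by
        rw [hSt, ← hthG x g, hg', e1]
        exact hij
      have h2 := h h1
      rw [hSt, ← hthG y g, hg', e1] at h2
      exact h2
    · intro h g hg
      exact h hg
  refine ⟨G, inferInstance, inferInstance, H,
    ⟨RelIso.ofSurjective (OrderEmbedding.ofMapLEIff (fun x => ⟨St x, hHSt x⟩) hStle) ?_⟩⟩
  rintro ⟨S, hHS⟩
  let ρ : Setoid (Fin N) :=
    { r := fun i j => ∃ g : G, ∃ s ∈ S, g.1 o = i ∧ g.1 (s.1 o) = j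
      iseqv := by
        refine ⟨fun i => ?_, ?_, ?_⟩
        · obtain ⟨g, hg⟩ := htr i i.2
          exact ⟨g, 1, S.one_mem, hg, hg⟩
        · rintro i j ⟨g, s, hs, rfl, rfl⟩
          refine ⟨g * s, s⁻¹, S.inv_mem hs, rfl, ?_⟩
          change g.1 (s.1 (s.1⁻¹ o)) = g.1 o
          exact congrArg g.1 (s.1.apply_symm_apply o)
        · rintro i j k ⟨g, s, hs, rfl, rfl⟩ ⟨g', s', hs', h1, rfl⟩
          have h2 : s⁻¹ * g⁻¹ * g' ∈ H := by
            change s.1⁻¹ (g.1⁻¹ (g'.1 o)) = o
            rw [h1]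
            have h3 : g.1⁻¹ (g.1 (s.1 o)) = s.1 o := g.1.symm_apply_apply _
            rw [h3]
            exact s.1.symm_apply_apply o
          refine ⟨g, s * (s⁻¹ * g⁻¹ * g') * s',
            S.mul_mem (S.mul_mem hs (hHS h2)) hs', rfl, ?_⟩
          have h4 : g * (s * (s⁻¹ * g⁻¹ * g') * s') = g' * s' := by group
          change (g * (s * (s⁻¹ * g⁻¹ * g') * s')).1 o = (g' * s').1 o
          rw [h4] }
  have hρ : ∀ i j, ρ i j ↔ ∃ g : G, ∃ s ∈ S, g.1 o = i ∧ g.1 (s.1 o) = j := fun _ _ => Iff.rfl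
  have hρo : ∀ g : G, ρ o (g.1 o) ↔ g ∈ S := by
    intro g
    constructor
    · rintro ⟨k, s, hs, h1, h2⟩
      have h3 : g⁻¹ * (k * s) ∈ H := by
        change g.1⁻¹ (k.1 (s.1 o)) = o
        rw [h2]
        exact g.1.symm_apply_apply o
      have h4 : k * s ∈ S := S.mul_mem (hHS h1) hs
      have h5 : g = (k * s) * (g⁻¹ * (k * s))⁻¹ := by group
      rw [h5]
      exact S.mul_mem h4 (S.inv_mem (hHS h3))
    · intro hg
      exact ⟨1, g, hg, rfl, rfl⟩
  have hF : ∀ f ∈ fs, ∀ a a', ρ a a' → ρ (hat f a) (hat f a') := by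
    rintro f hf _ _ ⟨g, s, hs, rfl, rfl⟩
    obtain ⟨p, hp⟩ := hgen f hf
    exact ⟨p * g, s, hs, hp _, hp _⟩
  have hR : ∀ f ∈ fs, ∀ a c, a < N → c < N → extS ρ a c → extS ρ (get f a) (get f c) := by
    intro f hf a c ha hc hac
    rw [extS_iff ρ ha hc] at hac
    rw [extS_iff ρ (hlt f hf a ha) (hlt f hf c hc)]
    have := hF f hf _ _ hac
    have e1 : hat f ⟨a, ha⟩ = ⟨get f a, hlt f hf a ha⟩ := Fin.ext (hhat f hf ⟨a, ha⟩)
    have e2 : hat f ⟨c, hc⟩ = ⟨get f c, hlt f hf c hc⟩ := Fin.ext (hhat f hf ⟨c, hc⟩)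
    rwa [e1, e2] at this
  -- principal congruences
  have hpr : ∀ j : Fin N, ρ o j → ∃ x : FO n b, th x ≤ ρ ∧ th x o j := by
    intro j hr
    obtain ⟨x, hx, hx'⟩ := anyN_iff.1 (allN_iff.1 hprin j j.2)
    rw [Bool.and_eq_true, beq_iff_eq] at hx'
    refine ⟨FO.mk x hx, ?_, hx'.1⟩
    intro a c hac
    have h2 := hfiner x hx _ hx'.2 a c a.2 c.2 hac
    have hr' : extS ρ 0 j := (extS_iff ρ hN' j.2).2 hr
    have h3 := cl_sound (extS ρ) N fs hR hlt fuel (List.range N) [(0, (j : ℕ))] (by simp)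
      (by intro a c ha hc h; rw [get_range ha, get_range hc] at h; exact Or.inl h)
      (by simp [hN', j.2, hr']) a c a.2 c.2 h2
    exact (extS_iff ρ a.2 c.2).1 h3
  have hjn : ∀ x y : FO n b, th x ≤ ρ → th y ≤ ρ →
      ∃ z : FO n b, x ≤ z ∧ y ≤ z ∧ th z ≤ ρ := by
    intro x y hx hy
    obtain ⟨z, hz, hz'⟩ := anyN_iff.1 (allN_iff.1 (allN_iff.1 hjoin x.v x.v_lt) y.v y.v_lt)
    rw [Bool.and_eq_true, Bool.and_eq_true] at hz'
    refine ⟨FO.mk z hz, hz'.1.1, hz'.1.2, ?_⟩
    intro a c hac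
    have h2 := hfiner z hz _ hz'.2 a c a.2 c.2 hac
    have h3 := cl_sound (extS ρ) N [] (by simp) (by simp) fuel (getL ths x.v)
      ((List.range N).map fun a => (a, get (getL ths y.v) a)) (htab' _ x.v_lt).1
      (by
        intro a c ha hc h
        exact (extS_iff ρ ha hc).2 (hx (show th x ⟨a, ha⟩ ⟨c, hc⟩ from h)))
      (by
        intro p hp
        obtain ⟨a, ha, rfl⟩ := List.mem_map.1 hp
        rw [List.mem_range] at ha
        obtain ⟨h4, h5⟩ := (htab' _ y.v_lt).2 a ha
        refine ⟨ha, h4, (extS_iff ρ ha h4).2 (hy ?_)⟩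
        exact h5.symm)
      a c a.2 c.2 h2
    exact (extS_iff ρ a.2 c.2).1 h3
  have hall : ∀ P : Finset (Fin N), (∀ p ∈ P, ρ o p) →
      ∃ x : FO n b, th x ≤ ρ ∧ ∀ p ∈ P, th x o p := by
    intro P
    induction P using Finset.induction_on with
    | empty =>
      intro _
      obtain ⟨x, hx, -⟩ := hpr o (Setoid.refl' _ _)
      exact ⟨x, hx, by simp⟩
    | insert p P hp ih =>
      intro hP
      obtain ⟨x, hx, hx'⟩ := ih fun q hq => hP q (Finset.mem_insert_of_mem hq)
      obtain ⟨y, hy, hy'⟩ := hpr p (hP p (Finset.mem_insert_self _ _))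
      obtain ⟨z, hxz, hyz, hz⟩ := hjn x y hx hy
      refine ⟨z, hz, fun q hq => ?_⟩
      rcases Finset.mem_insert.1 hq with rfl | hq
      · exact (hle y z).2 hyz hy'
      · exact (hle x z).2 hxz (hx' q hq)
  obtain ⟨x, hx, hx'⟩ := hall (Finset.univ.filter fun p => ρ o p) (by simp)
  refine ⟨x, ?_⟩
  apply Subtype.ext
  ext g
  change g ∈ St x ↔ g ∈ S
  rw [hSt]
  constructor
  · intro hg
    exact (hρo g).1 (hx hg)
  · intro hg
    exact hx' (g.1 o) (by simpa using (hρo g).2 hg)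

theorem FO.gi_dual {n b c : ℕ} (f g : List ℕ) (h : dualCheck n b c f g = true)
    (hc : GroupInterval (FO n c)) : GroupInterval (FO n b) := by
  rw [dualCheck, Bool.and_eq_true, Bool.and_eq_true] at h
  have h1 := allN_iff.1 h.1.2
  have h2 : ∀ x, x < n → get f x < n ∧ get g x < n ∧ get g (get f x) = x ∧
      get f (get g x) = x := by
    intro x hx
    have := h1 x hx
    simp only [Bool.and_eq_true, Nat.blt_eq, beq_iff_eq] at this
    exact ⟨this.1.1.1, this.1.1.2, this.1.2, this.2⟩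
  let e : FO n b ≃o (FO n c)ᵒᵈ :=
    { toFun := fun x => OrderDual.toDual (FO.mk (get f x.v) (h2 _ x.v_lt).1)
      invFun := fun x => FO.mk (get g (OrderDual.ofDual x).v) (h2 _ (OrderDual.ofDual x).v_lt).2.1
      left_inv := fun x => FO.ext (h2 _ x.v_lt).2.2.1
      right_inv := fun x => congrArg OrderDual.toDual
        (FO.ext (h2 _ (OrderDual.ofDual x).v_lt).2.2.2)
      map_rel_iff' := by
        intro x y
        have := allN_iff.1 (allN_iff.1 h.2 x.v x.v_lt) y.v y.v_lt
        rw [beq_iff_eq] at this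
        change ordB n c (get f y.v) (get f x.v) = true ↔ ordB n b x.v y.v = true
        rw [this] }
  exact (GroupInterval.dual hc).of_iso e

/-! ### Homomorphisms onto the two-element chain -/

/-- The join, by search. -/
def jf (n b x y : ℕ) : ℕ := ((List.range n).find? (isJn n b x y)).getD 0

/-- The meet, by search. -/
def mf (n b x y : ℕ) : ℕ := ((List.range n).find? (isMt n b x y)).getD 0

/-- The fibre of `f` over `k` is distributive. -/
def distB (n b k : ℕ) (f : List ℕ) : Bool :=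
  allN n fun x => allN n fun y => allN n fun z =>
    impB (get f x == k && get f y == k && get f z == k)
      (ordB n b (mf n b x (jf n b y z)) (jf n b (mf n b x y) (mf n b x z)))

/-- `f` is the table of a homomorphism onto the two-element chain. -/
def chCheck (n b : ℕ) (f : List ℕ) : Bool :=
  isLat n b && (allN n fun x => Nat.blt (get f x) 2) &&
  (anyN n fun x => get f x == 0) && (anyN n fun x => get f x == 1) &&
  (allN n fun x => allN n fun y =>
    (get f (jf n b x y) == Nat.max (get f x) (get f y)) &&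
    (get f (mf n b x y) == Nat.min (get f x) (get f y)))

/-- `e` is the table of an isomorphism of `FO m c` onto the fibre of `f` over `0`. -/
def fibCheck (n b m c : ℕ) (f e : List ℕ) : Bool :=
  (allN m fun i => Nat.blt (get e i) n && (get f (get e i) == 0)) &&
  (allN m fun i => allN m fun j => ordB m c i j == ordB n b (get e i) (get e j)) &&
  (allN n fun x => impB (get f x == 0) (anyN m fun i => get e i == x))

theorem isJn_jf {n b : ℕ} (h : isLat n b = true) {x y : ℕ} (hx : x < n) (hy : y < n) :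
    jf n b x y < n ∧ isJn n b x y (jf n b x y) = true := by
  rw [isLat, Bool.and_eq_true] at h
  have h1 := allN_iff.1 (allN_iff.1 h.2 x hx) y hy
  rw [Bool.and_eq_true] at h1
  obtain ⟨z, hz, hz'⟩ := anyN_iff.1 h1.1
  have h2 : ((List.range n).find? (isJn n b x y)).isSome :=
    List.find?_isSome.2 ⟨z, List.mem_range.2 hz, hz'⟩
  obtain ⟨w, hw⟩ := Option.isSome_iff_exists.1 h2
  have h3 : jf n b x y = w := by rw [jf, hw]; rfl
  rw [h3]
  exact ⟨List.mem_range.1 (List.mem_of_find?_eq_some hw), List.find?_some hw⟩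

theorem isMt_mf {n b : ℕ} (h : isLat n b = true) {x y : ℕ} (hx : x < n) (hy : y < n) :
    mf n b x y < n ∧ isMt n b x y (mf n b x y) = true := by
  rw [isLat, Bool.and_eq_true] at h
  have h1 := allN_iff.1 (allN_iff.1 h.2 x hx) y hy
  rw [Bool.and_eq_true] at h1
  obtain ⟨z, hz, hz'⟩ := anyN_iff.1 h1.2
  have h2 : ((List.range n).find? (isMt n b x y)).isSome :=
    List.find?_isSome.2 ⟨z, List.mem_range.2 hz, hz'⟩
  obtain ⟨w, hw⟩ := Option.isSome_iff_exists.1 h2
  have h3 : mf n b x y = w := by rw [mf, hw]; rfl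
  rw [h3]
  exact ⟨List.mem_range.1 (List.mem_of_find?_eq_some hw), List.find?_some hw⟩

theorem FO.rep_chain {n b : ℕ} (f : List ℕ) (h : chCheck n b f = true)
    (h0 : distB n b 0 f = true ∨ ∃ m c, ∃ e : List ℕ, fibCheck n b m c f e = true ∧
      GroupInterval (FO m c))
    (h1 : distB n b 1 f = true) : Representable (FO n b) := by
  simp only [chCheck, Bool.and_eq_true] at h
  obtain ⟨⟨⟨⟨hn, hf⟩, hs0⟩, hs1⟩, hhom⟩ := h
  let _ : Lattice (FO n b) := FO.lat hn
  have hsup : ∀ x y : FO n b, (x ⊔ y).v = jf n b x.v y.v := by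
    intro x y
    obtain ⟨h2, h3⟩ := isJn_jf hn x.v_lt y.v_lt
    simp only [isJn, Bool.and_eq_true] at h3
    have h4 : x ⊔ y ≤ FO.mk _ h2 := sup_le (a := x) (b := y) h3.1.1 h3.1.2
    have h5 : (FO.mk _ h2 : FO n b) ≤ x ⊔ y := by
      refine impB_iff.1 (allN_iff.1 h3.2 (x ⊔ y).v (x ⊔ y).v_lt) ?_
      rw [Bool.and_eq_true]
      exact ⟨le_sup_left (a := x) (b := y), le_sup_right (a := x) (b := y)⟩
    exact congrArg FO.v (le_antisymm h4 h5)
  have hinf : ∀ x y : FO n b, (x ⊓ y).v = mf n b x.v y.v := by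
    intro x y
    obtain ⟨h2, h3⟩ := isMt_mf hn x.v_lt y.v_lt
    simp only [isMt, Bool.and_eq_true] at h3
    have ha : (FO.mk _ h2 : FO n b) ≤ x := h3.1.1
    have hb : (FO.mk _ h2 : FO n b) ≤ y := h3.1.2
    have h4 : FO.mk _ h2 ≤ x ⊓ y := le_inf ha hb
    have h5 : x ⊓ y ≤ (FO.mk _ h2 : FO n b) := by
      refine impB_iff.1 (allN_iff.1 h3.2 (x ⊓ y).v (x ⊓ y).v_lt) ?_
      rw [Bool.and_eq_true]
      exact ⟨inf_le_left (a := x) (b := y), inf_le_right (a := x) (b := y)⟩
    exact congrArg FO.v (le_antisymm h5 h4)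
  have hf' : ∀ x, x < n → get f x < 2 := fun x hx => by
    have := allN_iff.1 hf x hx
    simpa using this
  let F : LatticeHom (FO n b) (Fin 2) :=
    { toFun := fun x => ⟨get f x.v, hf' _ x.v_lt⟩
      map_sup' := by
        intro x y
        have h2 := allN_iff.1 (allN_iff.1 hhom x.v x.v_lt) y.v y.v_lt
        rw [Bool.and_eq_true, beq_iff_eq, beq_iff_eq] at h2
        apply Fin.ext
        change get f (x ⊔ y).v = _
        rw [hsup, h2.1, Fin.coe_max]
      map_inf' := by
        intro x y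
        have h2 := allN_iff.1 (allN_iff.1 hhom x.v x.v_lt) y.v y.v_lt
        rw [Bool.and_eq_true, beq_iff_eq, beq_iff_eq] at h2
        apply Fin.ext
        change get f (x ⊓ y).v = _
        rw [hinf, h2.2, Fin.coe_min] }
  have hFv : ∀ x, (F x : ℕ) = get f x.v := fun _ => rfl
  have hsurj : ∀ k : Fin 2, ∃ x, F x = k := by
    intro k
    fin_cases k
    · obtain ⟨x, hx, hx'⟩ := anyN_iff.1 hs0
      rw [beq_iff_eq] at hx'
      exact ⟨FO.mk x hx, Fin.ext hx'⟩
    · obtain ⟨x, hx, hx'⟩ := anyN_iff.1 hs1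
      rw [beq_iff_eq] at hx'
      exact ⟨FO.mk x hx, Fin.ext hx'⟩
  have hdist : ∀ k : Fin 2, distB n b k f = true → FibreDistributive F k := by
    intro k hk x y z hx hy hz
    have h2 := allN_iff.1 (allN_iff.1 (allN_iff.1 hk x.v x.v_lt) y.v y.v_lt) z.v z.v_lt
    have h3 := impB_iff.1 h2 (by
      have e1 : get f x.v = k := by rw [← hFv, hx]
      have e2 : get f y.v = k := by rw [← hFv, hy]
      have e3 : get f z.v = k := by rw [← hFv, hz]
      simp [e1, e2, e3])
    rw [FO.le_def]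
    simp only [hsup, hinf]
    exact h3
  have : Finite (FO n b) := inferInstanceAs (Finite (Fin n))
  have : Nonempty (FO n b) := ⟨(hsurj 0).choose⟩
  refine representable_of_chain F hsurj ?_ ?_
  · intro k hk
    have hk0 : k = 0 := le_antisymm (hk 0) (Fin.zero_le _)
    subst hk0
    rcases h0 with h0 | ⟨m, c, e, he, G, i1, i2, H, ⟨φ⟩⟩
    · exact Or.inl (hdist 0 h0)
    · right
      simp only [fibCheck, Bool.and_eq_true] at he
      obtain ⟨⟨he1, he2⟩, he3⟩ := he
      have he1' : ∀ i, i < m → get e i < n ∧ get f (get e i) = 0 := by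
        intro i hi
        have h2 := allN_iff.1 he1 i hi
        rw [Bool.and_eq_true] at h2
        exact ⟨by simpa using h2.1, by simpa using h2.2⟩
      let ψ : FO m c → {l : FO n b // F l = 0} := fun i =>
        ⟨FO.mk (get e i.v) (he1' _ i.v_lt).1, Fin.ext (he1' _ i.v_lt).2⟩
      have hψ : ∀ i j, ψ i ≤ ψ j ↔ i ≤ j := by
        intro i j
        have h2 := allN_iff.1 (allN_iff.1 he2 i.v i.v_lt) j.v j.v_lt
        rw [beq_iff_eq] at h2
        change ordB n b (get e i.v) (get e j.v) = true ↔ ordB m c i.v j.v = true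
        rw [h2]
      have hψs : Function.Surjective ψ := by
        rintro ⟨x, hx⟩
        have h2 := impB_iff.1 (allN_iff.1 he3 x.v x.v_lt) (by
          rw [beq_iff_eq, ← hFv, hx]; rfl)
        obtain ⟨i, hi, hi'⟩ := anyN_iff.1 h2
        rw [beq_iff_eq] at hi'
        exact ⟨FO.mk i hi, Subtype.ext (FO.ext hi')⟩
      have hψi : Function.Injective ψ := by
        intro i j hij
        have h2 : i ≤ j := (hψ i j).1 hij.le
        have h3 : j ≤ i := (hψ j i).1 hij.ge
        have h4 : φ i = φ j := le_antisymm (φ.le_iff_le.2 h2) (φ.le_iff_le.2 h3)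
        exact φ.injective h4
      let Ψ : FO m c ≃o {l : FO n b // F l = 0} :=
        { toEquiv := Equiv.ofBijective ψ ⟨hψi, hψs⟩
          map_rel_iff' := fun {i j} => hψ i j }
      exact ⟨G, i1, i2, H, ⟨Ψ.symm.trans φ⟩⟩
  · rintro k ⟨k', hk'⟩
    have hk1 : k = 1 := by omega
    subst hk1
    exact hdist 1 h1

/-- `f` is the table of a homomorphism onto the chain `0 < ... < k` with distributive fibres. -/
def chCheckK (n b k : ℕ) (f : List ℕ) : Bool :=
  isLat n b && (allN n fun x => Nat.blt (get f x) (k + 1)) &&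
  (allN (k + 1) fun i => anyN n fun x => get f x == i) &&
  (allN n fun x => allN n fun y =>
    (get f (jf n b x y) == Nat.max (get f x) (get f y)) &&
    (get f (mf n b x y) == Nat.min (get f x) (get f y))) &&
  (allN (k + 1) fun i => distB n b i f)

theorem FO.rep_chainK {n b : ℕ} (k : ℕ) (f : List ℕ) (h : chCheckK n b k f = true) :
    Representable (FO n b) := by
  simp only [chCheckK, Bool.and_eq_true] at h
  obtain ⟨⟨⟨⟨hn, hf⟩, hs⟩, hhom⟩, hd⟩ := h
  let _ : Lattice (FO n b) := FO.lat hn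
  have hsup : ∀ x y : FO n b, (x ⊔ y).v = jf n b x.v y.v := by
    intro x y
    obtain ⟨h2, h3⟩ := isJn_jf hn x.v_lt y.v_lt
    simp only [isJn, Bool.and_eq_true] at h3
    have h4 : x ⊔ y ≤ FO.mk _ h2 := sup_le (a := x) (b := y) h3.1.1 h3.1.2
    have h5 : (FO.mk _ h2 : FO n b) ≤ x ⊔ y := by
      refine impB_iff.1 (allN_iff.1 h3.2 (x ⊔ y).v (x ⊔ y).v_lt) ?_
      rw [Bool.and_eq_true]
      exact ⟨le_sup_left (a := x) (b := y), le_sup_right (a := x) (b := y)⟩
    exact congrArg FO.v (le_antisymm h4 h5)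
  have hinf : ∀ x y : FO n b, (x ⊓ y).v = mf n b x.v y.v := by
    intro x y
    obtain ⟨h2, h3⟩ := isMt_mf hn x.v_lt y.v_lt
    simp only [isMt, Bool.and_eq_true] at h3
    have ha : (FO.mk _ h2 : FO n b) ≤ x := h3.1.1
    have hb : (FO.mk _ h2 : FO n b) ≤ y := h3.1.2
    have h4 : FO.mk _ h2 ≤ x ⊓ y := le_inf ha hb
    have h5 : x ⊓ y ≤ (FO.mk _ h2 : FO n b) := by
      refine impB_iff.1 (allN_iff.1 h3.2 (x ⊓ y).v (x ⊓ y).v_lt) ?_
      rw [Bool.and_eq_true]
      exact ⟨inf_le_left (a := x) (b := y), inf_le_right (a := x) (b := y)⟩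
    exact congrArg FO.v (le_antisymm h5 h4)
  have hf' : ∀ x, x < n → get f x < k + 1 := fun x hx => by
    have := allN_iff.1 hf x hx
    simpa using this
  let F : LatticeHom (FO n b) (Fin (k + 1)) :=
    { toFun := fun x => ⟨get f x.v, hf' _ x.v_lt⟩
      map_sup' := by
        intro x y
        have h2 := allN_iff.1 (allN_iff.1 hhom x.v x.v_lt) y.v y.v_lt
        rw [Bool.and_eq_true, beq_iff_eq, beq_iff_eq] at h2
        apply Fin.ext
        change get f (x ⊔ y).v = _
        rw [hsup, h2.1, Fin.coe_max]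
      map_inf' := by
        intro x y
        have h2 := allN_iff.1 (allN_iff.1 hhom x.v x.v_lt) y.v y.v_lt
        rw [Bool.and_eq_true, beq_iff_eq, beq_iff_eq] at h2
        apply Fin.ext
        change get f (x ⊓ y).v = _
        rw [hinf, h2.2, Fin.coe_min] }
  have hFv : ∀ x, (F x : ℕ) = get f x.v := fun _ => rfl
  have hsurj : ∀ i : Fin (k + 1), ∃ x, F x = i := by
    intro i
    obtain ⟨x, hx, hx'⟩ := anyN_iff.1 (allN_iff.1 hs i i.2)
    rw [beq_iff_eq] at hx'
    exact ⟨FO.mk x hx, Fin.ext hx'⟩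
  have hdist : ∀ i : Fin (k + 1), FibreDistributive F i := by
    intro i x y z hx hy hz
    have hk := allN_iff.1 hd i i.2
    have h2 := allN_iff.1 (allN_iff.1 (allN_iff.1 hk x.v x.v_lt) y.v y.v_lt) z.v z.v_lt
    have h3 := impB_iff.1 h2 (by
      have e1 : get f x.v = i := by rw [← hFv, hx]
      have e2 : get f y.v = i := by rw [← hFv, hy]
      have e3 : get f z.v = i := by rw [← hFv, hz]
      simp [e1, e2, e3])
    rw [FO.le_def]
    simp only [hsup, hinf]
    exact h3
  have : Finite (FO n b) := inferInstanceAs (Finite (Fin n))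
  have : Nonempty (FO n b) := ⟨(hsurj 0).choose⟩
  exact representable_of_chain F hsurj (fun i _ => Or.inl (hdist i)) (fun i _ => hdist i)

/-! ### Certificates -/

/-- the order `0 < 1, 2 < 3 < 5`, `0 < 4 < 5`, in a group of order 72 -/
theorem gi_S6 : GroupInterval (FO 6 6) :=
  FO.group_interval 18 400 [[1, 3, 5, 6, 7, 8, 10, 11, 2, 12, 13, 15, 16, 0, 17, 14, 9, 4],
    [2, 4, 0, 7, 1, 9, 8, 3, 6, 5, 14, 12, 11, 15, 10, 13, 17, 16]]
    [[0, 1, 2, 3, 4, 5, 6, 7, 8, 9, 10, 11, 12, 13, 14, 15, 16, 17], [0, 1, 2, 0, 4, 5, 1,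
      2, 4, 9, 0, 5, 9, 1, 2, 4, 9, 5], [0, 1, 2, 3, 4, 2, 0, 7, 2, 0, 1, 4, 1, 3, 4, 7, 3,
      7], [0, 0, 2, 0, 2, 2, 0, 2, 2, 0, 0, 2, 0, 0, 2, 2, 0, 2], [0, 1, 2, 3, 1, 5, 6, 3,
      8, 5, 10, 6, 8, 13, 13, 10, 2, 0], [0, 0, 0, 0, 0, 0, 0, 0, 0, 0, 0, 0, 0, 0, 0, 0, 0,
      0]]
    (by decide +kernel)

/-- the dual order `0 < 1 < 2, 3 < 5`, `0 < 4 < 5` -/
theorem gi_dS6 : GroupInterval (FO 6 3) :=
  FO.gi_dual [5, 3, 1, 2, 4, 0] [5, 2, 3, 1, 4, 0] (by decide +kernel) gi_S6

/-- the pentagon, in a group of order 216 -/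
theorem gi_N5 : GroupInterval (FO 5 1) :=
  FO.group_interval 36 400 [[1, 3, 5, 0, 8, 10, 12, 11, 15, 17, 19, 20, 21, 23, 24, 26, 28, 4,
    30, 14, 31, 16, 13, 18, 2, 29, 9, 7, 33, 25, 34, 32, 27, 6, 22, 35], [2, 4, 6, 7, 9, 11,
    13, 14, 16, 18, 12, 5, 22, 0, 25, 27, 8, 29, 1, 10, 17, 32, 19, 31, 30, 3, 28, 23, 24, 33,
    26, 15, 34, 20, 35, 21]]
    [[0, 1, 2, 3, 4, 5, 6, 7, 8, 9, 10, 11, 12, 13, 14, 15, 16, 17, 18, 19, 20, 21, 22, 23,
      24, 25, 26, 27, 28, 29, 30, 31, 32, 33, 34, 35], [0, 1, 2, 3, 4, 5, 0, 7, 2, 9, 10,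
      11, 1, 2, 14, 5, 0, 14, 10, 9, 7, 3, 4, 5, 4, 25, 10, 11, 1, 25, 9, 11, 7, 3, 14, 25],
      [0, 1, 1, 3, 0, 3, 0, 7, 1, 1, 0, 7, 1, 1, 3, 3, 0, 3, 0, 1, 7, 3, 0, 3, 0, 7, 0, 7,
      1, 7, 1, 7, 7, 3, 3, 7], [0, 0, 2, 0, 2, 5, 6, 2, 5, 6, 10, 5, 12, 13, 6, 10, 5, 12,
      13, 19, 10, 2, 22, 22, 12, 13, 19, 12, 10, 22, 22, 19, 6, 19, 13, 0], [0, 0, 0, 0, 0,
      0, 0, 0, 0, 0, 0, 0, 0, 0, 0, 0, 0, 0, 0, 0, 0, 0, 0, 0, 0, 0, 0, 0, 0, 0, 0, 0, 0, 0,
      0, 0]]
    (by decide +kernel)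

/-! ### The lattices -/

theorem r8_966 : Representable (FO 8 966) :=
  FO.rep_chain [0, 0, 0, 0, 0, 0, 1, 1] (by decide +kernel)
    (Or.inr ⟨6, 6, [0, 1, 2, 3, 4, 5], by decide +kernel, gi_S6⟩) (by decide +kernel)

theorem r8_1990 : Representable (FO 8 1990) :=
  FO.rep_chain [0, 0, 0, 0, 0, 0, 1, 1] (by decide +kernel)
    (Or.inr ⟨6, 6, [0, 1, 2, 3, 4, 5], by decide +kernel, gi_S6⟩) (by decide +kernel)

theorem r8_963 : Representable (FO 8 963) :=
  FO.rep_chain [0, 0, 0, 0, 0, 0, 1, 1] (by decide +kernel)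
    (Or.inr ⟨6, 3, [0, 1, 2, 3, 4, 5], by decide +kernel, gi_dS6⟩) (by decide +kernel)

theorem r8_123 : Representable (FO 8 123) :=
  FO.rep_dual [7, 5, 2, 3, 1, 4, 6, 0] [7, 4, 2, 3, 5, 1, 6, 0] (by decide +kernel) r8_963

theorem r8_3906 : Representable (FO 8 3906) :=
  FO.rep_chain [0, 0, 1, 0, 0, 0, 1, 1] (by decide +kernel)
    (Or.inr ⟨5, 1, [0, 1, 3, 4, 5], by decide +kernel, gi_N5⟩) (by decide +kernel)

theorem r8_1136 : Representable (FO 8 1136) :=
  FO.rep_chain [0, 1, 0, 0, 0, 1, 1, 1] (by decide +kernel) (Or.inl (by decide +kernel))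
    (by decide +kernel)

theorem r8_1264 : Representable (FO 8 1264) :=
  FO.rep_chain [0, 1, 0, 0, 0, 1, 1, 1] (by decide +kernel) (Or.inl (by decide +kernel))
    (by decide +kernel)

theorem r8_95 : Representable (FO 8 95) :=
  FO.rep_dual [7, 5, 3, 1, 2, 4, 6, 0] [7, 3, 4, 2, 5, 1, 6, 0] (by decide +kernel) r8_966

theorem r8_1210 : Representable (FO 8 1210) :=
  FO.rep_dual [7, 5, 6, 3, 1, 2, 4, 0] [7, 4, 5, 3, 6, 1, 2, 0] (by decide +kernel) r8_3906

theorem r8_1273 : Representable (FO 8 1273) :=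
  FO.rep_dual [7, 5, 3, 6, 1, 2, 4, 0] [7, 4, 5, 2, 6, 1, 3, 0] (by decide +kernel) r8_1990

theorem r8_1987 : Representable (FO 8 1987) :=
  FO.rep_chainK 2 [0, 1, 1, 1, 0, 1, 2, 2] (by decide +kernel)

end Vale.Agent.P183.H996
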