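import Vale.Agent.P183.H996.C56B5
import Vale.Agent.P183.H996.C56B7
import Vale.Agent.P183.H996.Eight
import Vale.Agent.P183.Bdl.B3

/-!
The interval `[A, M]`, `M` an extension of an elementary abelian group of order 256 by the
Mathieu group of degree ten, `A` of order 20 (index 9216).
-/

set_option linter.all false

namespace Vale.Agent.P183.H996

open Vale.Agent.P183

theorem c56_a : (Nat.blt 1 c56.N && Nat.blt 0 c56.n && isPO c56.n c56.b && Nat.ble c56.nh c56.k &&
      (allN c56.nh fun i => c56.g i 0 == 0) && (c56.rp 0 == 0) && (c56.cl 0 == 0) &&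
      (allN c56.n fun x => x == 0 || c56.c7 x) && (allN c56.n fun x => allN c56.n (c56.c9 x))) = true := by
  decide +kernel

theorem c56_chk : c56.chk = true := by
  refine c56.chk_of c56_a c56_1 c56_2 (fun x hx => ?_) c56_40 c56_5 c56_8
  have hx' : x < 8 := hx
  rcases x with _ | _ | _ | _ | _ | _ | _ | _ | x
  · exact c56_4_0
  · exact c56_4_1
  · exact c56_4_2
  · exact c56_4_3
  · exact c56_4_4
  · exact c56_4_5
  · exact c56_4_6
  · exact c56_4_7
  · omega

/-- Eight overgroups of a group of order twenty in a group of order 184320. -/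
theorem gi8_56 : GroupInterval (FO 8 56) := c56.interval c56_chk

theorem r8_56 : Representable (FO 8 56) := by
  obtain ⟨G, i1, i2, H, ⟨e⟩⟩ := gi8_56
  exact Representable.of_iso e (representable_interval G H)

/-- The dual lattice. -/
theorem gi8_11 : GroupInterval (FO 8 11) :=
  FO.gi_dual [7, 4, 1, 2, 3, 5, 6, 0] [7, 2, 3, 4, 1, 5, 6, 0] (by decide +kernel) gi8_56

theorem r8_11 : Representable (FO 8 11) :=
  FO.rep_dual [7, 4, 1, 2, 3, 5, 6, 0] [7, 2, 3, 4, 1, 5, 6, 0] (by decide +kernel) r8_56

end Vale.Agent.P183.H996
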