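import Vale.Agent.P183.H996.C56A1

/-!
A check for the certificate `c56`.
-/

set_option linter.all false

namespace Vale.Agent.P183.H996

open Vale.Agent.P183

theorem c56_5 : allN c56.N c56.c5 = true := by decide +kernel

end Vale.Agent.P183.H996
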