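import Vale.Agent.P183.H996.C56A2

/-!
A check for the certificate `c56`.
-/

set_option linter.all false

namespace Vale.Agent.P183.H996

open Vale.Agent.P183

theorem c56_8 : (allN c56.n fun x => x == 0 || allN c56.N (c56.c8 x)) = true := by decide +kernel

theorem c56_2 : allN c56.N c56.c2 = true := by decide +kernel

theorem c56_40 : (allN c56.N fun a => c56.t 0 a == a) = true := by decide +kernel

end Vale.Agent.P183.H996
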