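import Mathlib.Algebra.Group.Subgroup.Basic
import Mathlib.Algebra.Group.Pi.Lemmas
import Vale.Agent.P183.H996.Chain

/-!
Functors from a representable lattice to finite groups: the lattice of all intermediate
subgroups is representable.
-/

set_option linter.unusedSectionVars false

namespace Vale.Agent.P183.H996

open Vale.Agent.P183

/-- A functor from the ordered set `K` to finite groups `X k`, together with subgroups
`Y k` of `X k` respected by the transition maps. -/
structure GroupFunctor (K : Type) [Lattice K] where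
  X : K → Type
  grp : ∀ k, Group (X k)
  fin : ∀ k, Finite (X k)
  map : ∀ {a b : K}, a ≤ b → X a →* X b
  map_refl : ∀ (a : K) (x : X a), map (le_refl a) x = x
  map_trans : ∀ {a b c : K} (hab : a ≤ b) (hbc : b ≤ c) (x : X a),
    map hbc (map hab x) = map (hab.trans hbc) x
  Y : ∀ k, Subgroup (X k)
  map_Y : ∀ {a b : K} (h : a ≤ b), ∀ x ∈ Y a, map h x ∈ Y b

attribute [instance] GroupFunctor.grp GroupFunctor.fin

namespace GroupFunctor

variable {K : Type} [Lattice K] (F : GroupFunctor K)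

/-- All pairs `(k, W)` with `Y k ≤ W ≤ X k`. -/
def Total : Type := Σ k : K, {W : Subgroup (F.X k) // F.Y k ≤ W}

/-- `(a, W) ≤ (b, V)` iff `a ≤ b` and the transition map sends `W` into `V`. -/
instance : LE F.Total := ⟨fun a b => ∃ h : a.1 ≤ b.1, ∀ w ∈ a.2.1, F.map h w ∈ b.2.1⟩

variable {F}

theorem le_iff {a b : F.Total} : a ≤ b ↔ ∃ h : a.1 ≤ b.1, ∀ w ∈ a.2.1, F.map h w ∈ b.2.1 :=
  Iff.rfl

theorem ext' {a : K} {W V : {W : Subgroup (F.X a) // F.Y a ≤ W}} (h : W.1 = V.1) :
    (⟨a, W⟩ : F.Total) = ⟨a, V⟩ := by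
  have : W = V := Subtype.ext h
  rw [this]

noncomputable instance : Lattice F.Total where
  le := (· ≤ ·)
  le_refl a := ⟨le_rfl, fun w hw => by rw [F.map_refl]; exact hw⟩
  le_trans := by
    rintro a b c ⟨h1, h2⟩ ⟨h3, h4⟩
    refine ⟨h1.trans h3, fun w hw => ?_⟩
    rw [← F.map_trans h1 h3]
    exact h4 _ (h2 w hw)
  le_antisymm := by
    rintro ⟨a, W⟩ ⟨b, V⟩ ⟨h1, h2⟩ ⟨h3, h4⟩
    have hab : a = b := le_antisymm h1 h3
    subst hab
    refine ext' (le_antisymm (fun w hw => ?_) (fun w hw => ?_))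
    · have := h2 w hw
      rwa [F.map_refl] at this
    · have := h4 w hw
      rwa [F.map_refl] at this
  sup a b := ⟨a.1 ⊔ b.1, ⟨a.2.1.map (F.map le_sup_left) ⊔ b.2.1.map (F.map le_sup_right) ⊔
    F.Y (a.1 ⊔ b.1), le_sup_right⟩⟩
  le_sup_left a b := ⟨le_sup_left, fun w hw => by
    refine (le_sup_left.trans le_sup_left : a.2.1.map (F.map le_sup_left) ≤ _) ?_
    exact ⟨w, hw, rfl⟩⟩
  le_sup_right a b := ⟨le_sup_right, fun w hw => by
    refine (le_sup_right.trans le_sup_left : b.2.1.map (F.map le_sup_right) ≤ _) ?_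
    exact ⟨w, hw, rfl⟩⟩
  sup_le := by
    rintro a b c ⟨h1, h2⟩ ⟨h3, h4⟩
    refine ⟨sup_le h1 h3, ?_⟩
    have h5 : (a.2.1.map (F.map le_sup_left) ⊔ b.2.1.map (F.map le_sup_right) ⊔
        F.Y (a.1 ⊔ b.1)) ≤ c.2.1.comap (F.map (sup_le h1 h3)) := by
      refine sup_le (sup_le ?_ ?_) ?_
      · rintro _ ⟨w, hw, rfl⟩
        change F.map _ (F.map _ w) ∈ c.2.1
        rw [F.map_trans]
        exact h2 w hw
      · rintro _ ⟨w, hw, rfl⟩
        change F.map _ (F.map _ w) ∈ c.2.1
        rw [F.map_trans]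
        exact h4 w hw
      · intro w hw
        exact c.2.2 (F.map_Y _ w hw)
    exact fun w hw => h5 hw
  inf a b := ⟨a.1 ⊓ b.1, ⟨a.2.1.comap (F.map inf_le_left) ⊓ b.2.1.comap (F.map inf_le_right),
    le_inf (fun w hw => a.2.2 (F.map_Y _ w hw)) (fun w hw => b.2.2 (F.map_Y _ w hw))⟩⟩
  inf_le_left a b := ⟨inf_le_left, fun w hw => hw.1⟩
  inf_le_right a b := ⟨inf_le_right, fun w hw => hw.2⟩
  le_inf := by
    rintro a b c ⟨h1, h2⟩ ⟨h3, h4⟩
    refine ⟨le_inf h1 h3, fun w hw => ⟨?_, ?_⟩⟩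
    · change F.map _ (F.map _ w) ∈ b.2.1
      rw [F.map_trans]
      exact h2 w hw
    · change F.map _ (F.map _ w) ∈ c.2.1
      rw [F.map_trans]
      exact h4 w hw

/-- the projection -/
def proj (F : GroupFunctor K) : LatticeHom F.Total K where
  toFun a := a.1
  map_sup' _ _ := rfl
  map_inf' _ _ := rfl

/-- the subgroup attached to a pair -/
def PP (a : F.Total) : Subgroup (∀ k, F.X k) where
  carrier := {x | x a.1 ∈ a.2.1 ∧ ∀ u (h : a.1 ≤ u), x u = F.map h (x a.1)}
  one_mem' := ⟨a.2.1.one_mem, fun u h => (map_one (F.map h)).symm⟩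
  mul_mem' := by
    rintro x y ⟨hx1, hx2⟩ ⟨hy1, hy2⟩
    refine ⟨a.2.1.mul_mem hx1 hy1, fun u h => ?_⟩
    change x u * y u = F.map h (x a.1 * y a.1)
    rw [hx2 u h, hy2 u h, map_mul]
  inv_mem' := by
    rintro x ⟨hx1, hx2⟩
    refine ⟨a.2.1.inv_mem hx1, fun u h => ?_⟩
    change (x u)⁻¹ = F.map h (x a.1)⁻¹
    rw [hx2 u h, map_inv]

theorem mem_PP {a : F.Total} {x : ∀ k, F.X k} :
    x ∈ PP a ↔ x a.1 ∈ a.2.1 ∧ ∀ u (h : a.1 ≤ u), x u = F.map h (x a.1) := Iff.rfl

open Classical in
/-- extension of an element by the transition maps -/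
noncomputable def ext (s : K) : F.X s →* (∀ k, F.X k) where
  toFun w u := if h : s ≤ u then F.map h w else 1
  map_one' := by
    funext u
    by_cases h : s ≤ u
    · rw [dif_pos h, map_one]; rfl
    · rw [dif_neg h]; rfl
  map_mul' x y := by
    funext u
    change (if h : s ≤ u then F.map h (x * y) else 1) =
      (if h : s ≤ u then F.map h x else 1) * (if h : s ≤ u then F.map h y else 1)
    by_cases h : s ≤ u
    · rw [dif_pos h, dif_pos h, dif_pos h, map_mul]
    · rw [dif_neg h, dif_neg h, dif_neg h, one_mul]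

theorem ext_pos {s u : K} (h : s ≤ u) (w : F.X s) : ext s w u = F.map h w := by
  classical
  exact dif_pos h

theorem ext_self {s : K} (w : F.X s) : ext s w s = w := by
  rw [ext_pos le_rfl, F.map_refl]

/-- **Functor theorem.** -/
theorem representable_total (F : GroupFunctor K) (hK : Representable K) :
    Representable F.Total := by
  classical
  have hKf : Finite K := by
    obtain ⟨A, hAf, hAn, κ, hκ, -⟩ := hK.exists_closed
    have hinj : Function.Injective κ := by
      intro a b hab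
      exact le_antisymm ((hκ a b).1 hab.le) ((hκ b a).1 hab.ge)
    exact Finite.of_injective κ hinj
  have hQ : Finite (∀ k, F.X k) := Pi.finite
  refine Representable.master (proj F) (fun k => ⟨⟨k, F.Y k, le_rfl⟩, rfl⟩) PP ?_ ?_ ?_ hK
    (representable_subgroup (∀ k, F.X k))
  · rintro a b ⟨h1, h2⟩ x ⟨hx1, hx2⟩
    have hb : x b.1 = F.map h1 (x a.1) := hx2 _ h1
    refine ⟨?_, fun u h => ?_⟩
    · rw [hb]
      exact h2 _ hx1
    · rw [hb, F.map_trans, hx2 u (h1.trans h)]
  · intro a b hab' hle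
    have hab : a.1 ≤ b.1 := hab'
    refine ⟨hab, fun w hw => ?_⟩
    have h1 : ext a.1 w ∈ PP a := by
      refine ⟨?_, fun u h => ?_⟩
      · rw [ext_self]
        exact hw
      · rw [ext_self, ext_pos h]
    have h2 := (hle h1).1
    rwa [ext_pos hab] at h2
  · rintro ⟨s, W⟩ ⟨t, V⟩ S hst hS1 hS2
    have hst' : s = t := hst
    subst hst'
    have hW : ∀ w ∈ W.1, ext s w ∈ S := by
      intro w hw
      refine hS1 ⟨?_, fun u h => ?_⟩
      · change ext s w s ∈ W.1
        rw [ext_self]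
        exact hw
      · change ext s w u = F.map h (ext s w s)
        rw [ext_self, ext_pos h]
    have hYS : F.Y s ≤ S.comap (ext s) := fun w hw => hW w (W.2 hw)
    refine ⟨⟨s, ⟨S.comap (ext s), hYS⟩⟩, rfl, ?_⟩
    have key : ∀ x : (∀ k, F.X k), (∀ u (h : s ≤ u), x u = F.map h (x s)) →
        (x ∈ S ↔ ext s (x s) ∈ S) := by
      intro x hx
      have h1 : (ext s (x s))⁻¹ * x ∈ S := by
        apply hS1
        have h2 : ∀ u (h : s ≤ u), ((ext s (x s))⁻¹ * x) u = 1 := by
          intro u h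
          change (ext s (x s) u)⁻¹ * x u = 1
          rw [ext_pos h, ← hx u h, inv_mul_cancel]
        refine ⟨?_, fun u h => ?_⟩
        · change ((ext s (x s))⁻¹ * x) s ∈ W.1
          rw [h2 s le_rfl]
          exact W.1.one_mem
        · change ((ext s (x s))⁻¹ * x) u = F.map h (((ext s (x s))⁻¹ * x) s)
          rw [h2 u h, h2 s le_rfl, map_one]
      constructor
      · intro hxS
        have h3 := S.mul_mem hxS (S.inv_mem h1)
        rwa [mul_inv_rev, inv_inv, mul_inv_cancel_left] at h3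
      · intro hxS
        have h3 := S.mul_mem hxS h1
        rwa [mul_inv_cancel_left] at h3
    apply SetLike.ext
    intro x
    constructor
    · rintro ⟨h1, h2⟩
      exact (key x h2).2 h1
    · intro hx
      have h2 : ∀ u (h : s ≤ u), x u = F.map h (x s) := (hS2 hx).2
      exact ⟨(key x h2).1 hx, h2⟩

end GroupFunctor

end Vale.Agent.P183.H996
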