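import Vale.Agent.P183.H996.Dual

/-!
A certificate checker for intervals `[H, G]` of large index: tables are packed in natural
numbers in pieces of 1024 entries, and the completeness of the list of overgroups is certified by
words.
-/

set_option linter.all false

namespace Vale.Agent.P183.H996

open Vale.Agent.P183

/-- `f x`, with `x` evaluated first. -/
def force (x : ℕ) (f : ℕ → ℕ) : ℕ :=
  match x with
  | 0 => f 0
  | n + 1 => f (Nat.succ n)

/-- Entry `x` of a table with `w` bits per entry, given in pieces of 1024 entries. -/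
def tf (w : ℕ) (t : List ℕ) (x : ℕ) : ℕ :=
  force x fun y => Nat.mod (Nat.shiftRight (t.getD (Nat.div y 1024) 0)
    (Nat.mul w (Nat.mod y 1024))) (Nat.pow 2 w)

/-- Data of a certificate. -/
structure BF where
  /-- number of elements of the lattice and code of the order -/
  n : ℕ
  b : ℕ
  /-- index of the subgroup, bits per entry -/
  N : ℕ
  w : ℕ
  /-- generators, as packed tables, and their inverses; the first `nh` fix `0` -/
  k : ℕ
  nh : ℕ
  gs : List (List ℕ)
  is : List (List ℕ)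
  /-- spanning tree: parent and generator -/
  par : List ℕ
  gen : List ℕ
  /-- class of a point, representatives of the classes -/
  cls : List ℕ
  rep : List ℕ
  /-- the block systems -/
  th : List (List ℕ)
  /-- words -/
  wl : ℕ
  wd : List ℕ
  /-- paths in the blocks -/
  sch : List (List ℕ)
  /-- words for joins -/
  jw : List ℕ

namespace BF

variable (C : BF)

def g (i x : ℕ) : ℕ := tf C.w (C.gs.getD i []) x
def gi (i x : ℕ) : ℕ := tf C.w (C.is.getD i []) x
def pr (x : ℕ) : ℕ := tf C.w C.par x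
def ge (x : ℕ) : ℕ := tf 4 C.gen x
def cl (x : ℕ) : ℕ := tf 4 C.cls x
def rp (x : ℕ) : ℕ := C.rep.getD x 0
def t (x a : ℕ) : ℕ := tf C.w (C.th.getD x []) a
def le (x y : ℕ) : Bool := ordB C.n C.b x y
def sc (x a : ℕ) : ℕ := tf 12 (C.sch.getD x []) a

/-- The action of the `a`-th element of the transversal. -/
def app : ℕ → ℕ → ℕ → ℕ
  | 0, _, p => p
  | f + 1, a, p => if a == 0 then p else C.g (C.ge a) (app f (C.pr a) p)

/-- The element of the transversal which moves `0` to the representative of the class `x`. -/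
def r (x p : ℕ) : ℕ := C.app 40 (C.rp x) p

/-- Evaluation of a word for the point `a`. -/
def ev : ℕ → ℕ → ℕ → ℕ → ℕ
  | 0, _, _, p => p
  | f + 1, a, w, p =>
    if w % 16 == 0 then p
    else ev f a (w / 16) (if Nat.ble (w % 16) C.nh then C.g (w % 16 - 1) p else C.app 40 a p)

/-- Evaluation of a word in the generators attached to `x` and `y`. -/
def ej : ℕ → ℕ → ℕ → ℕ → ℕ → ℕ
  | 0, _, _, _, p => p
  | f + 1, x, y, w, p =>
    if w % 16 == 0 then p
    else ej f x y (w / 16) (if Nat.ble (w % 16) C.nh then C.g (w % 16 - 1) p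
      else if w % 16 == C.nh + 1 then C.r x p else C.r y p)

def c1 (i a : ℕ) : Bool :=
  Nat.blt (C.g i a) C.N && Nat.blt (C.gi i a) C.N && (C.gi i (C.g i a) == a)

def c2 (a : ℕ) : Bool :=
  a == 0 || (Nat.blt (C.pr a) a && Nat.blt (C.ge a) C.k && (C.g (C.ge a) (C.pr a) == a))

def c4 (x a : ℕ) : Bool :=
  Nat.blt (C.t x a) C.N && (C.t x (C.t x a) == C.t x a) &&
    ((C.t x a == 0) == C.le (C.cl a) x) &&
    allN C.k fun i => C.t x (C.g i a) == C.t x (C.g i (C.t x a))

def c5 (a : ℕ) : Bool :=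
  Nat.blt (C.cl a) C.n && (a == 0 ||
    if Nat.blt (C.ge a) C.nh then C.cl a == C.cl (C.pr a)
    else (C.app 40 a 0 == a) && (C.ev 40 a (tf C.wl C.wd a) 0 == C.rp (C.cl a)))

def c7 (x : ℕ) : Bool :=
  Nat.blt (C.rp x) C.N && (C.cl (C.rp x) == x) && (C.r x 0 == C.rp x)

def mv (x a : ℕ) : ℕ :=
  if Nat.blt (C.sc x a % 16) C.nh then C.g (C.sc x a % 16) a else C.r x a

def c8 (x a : ℕ) : Bool :=
  a == 0 || !(C.le (C.cl a) x) ||
    (C.le (C.cl (C.mv x a)) x && Nat.blt (C.sc x (C.mv x a) / 16) (C.sc x a / 16))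

def c9 (x y : ℕ) : Bool :=
  C.le x y || C.le y x ||
    (C.le x (C.cl (C.ej 40 x y (C.jw.getD (C.n * x + y) 0) 0)) &&
      C.le y (C.cl (C.ej 40 x y (C.jw.getD (C.n * x + y) 0) 0)))

def chk : Bool :=
  Nat.blt 1 C.N && Nat.blt 0 C.n && isPO C.n C.b && Nat.ble C.nh C.k &&
  (allN C.k fun i => allN C.N (C.c1 i)) &&
  (allN C.nh fun i => C.g i 0 == 0) &&
  (allN C.N C.c2) &&
  (allN C.n fun x => allN C.N (C.c4 x)) &&
  (allN C.N fun a => C.t 0 a == a) &&
  (allN C.N C.c5) && (C.rp 0 == 0) && (C.cl 0 == 0) &&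
  (allN C.n fun x => x == 0 || C.c7 x) &&
  (allN C.n fun x => x == 0 || allN C.N (C.c8 x)) &&
  (allN C.n fun x => allN C.n (C.c9 x))

theorem interval (h : C.chk = true) : GroupInterval (FO C.n C.b) := by
  classical
  simp only [chk, Bool.and_eq_true] at h
  obtain ⟨⟨⟨⟨⟨⟨⟨⟨⟨⟨⟨⟨⟨⟨hN, hn⟩, hpo⟩, hnk⟩, h1⟩, hfix⟩, h2⟩, h4⟩, hid⟩, h5⟩, hrp0⟩, hcl0⟩, h7⟩, h8⟩,
    h9⟩ := h
  let _ : PartialOrder (FO C.n C.b) := FO.po hpo
  have hN' : 1 < C.N := by simpa using hN
  have hn' : 0 < C.n := by simpa using hn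
  have hnk' : C.nh ≤ C.k := by simpa using hnk
  have hrp0' : C.rp 0 = 0 := by simpa using hrp0
  have hcl0' : C.cl 0 = 0 := by simpa using hcl0
  have hg1 : ∀ i, i < C.k → ∀ a, a < C.N → C.g i a < C.N ∧ C.gi i (C.g i a) = a := by
    intro i hi a ha
    have h := allN_iff.1 (allN_iff.1 h1 i hi) a ha
    simp only [c1, Bool.and_eq_true] at h
    exact ⟨by simpa using h.1.1, by simpa using h.2⟩
  have hg2 : ∀ a, a < C.N → a ≠ 0 → C.pr a < a ∧ C.ge a < C.k ∧ C.g (C.ge a) (C.pr a) = a := by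
    intro a ha h0
    have h := allN_iff.1 h2 a ha
    simp only [c2, Bool.or_eq_true, Bool.and_eq_true] at h
    rcases h with h | h
    · exact absurd (by simpa using h) h0
    · exact ⟨by simpa using h.1.1, by simpa using h.1.2, by simpa using h.2⟩
  have ht : ∀ x, x < C.n → ∀ a, a < C.N → C.t x a < C.N ∧ C.t x (C.t x a) = C.t x a ∧
      (C.t x a = 0 ↔ C.le (C.cl a) x = true) ∧
      ∀ i, i < C.k → C.t x (C.g i a) = C.t x (C.g i (C.t x a)) := by
    intro x hx a ha
    have h := allN_iff.1 (allN_iff.1 h4 x hx) a ha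
    simp only [c4, Bool.and_eq_true] at h
    refine ⟨by simpa using h.1.1.1, by simpa using h.1.1.2, ?_, fun i hi => ?_⟩
    · have h' := h.1.2
      rw [beq_iff_eq] at h'
      rw [← h', beq_iff_eq]
    · have h' := allN_iff.1 h.2 i hi
      simpa using h'
  let o : Fin C.N := ⟨0, by omega⟩
  let hat : ℕ → Fin C.N → Fin C.N := fun i a => if h : C.g i a < C.N then ⟨C.g i a, h⟩ else a
  have hhat : ∀ i, i < C.k → ∀ a : Fin C.N, (hat i a : ℕ) = C.g i a := by
    intro i hi a
    simp only [hat, dif_pos (hg1 i hi a a.2).1]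
  have hhatinj : ∀ i, i < C.k → Function.Injective (hat i) := by
    intro i hi a c hac
    apply Fin.ext
    rw [← (hg1 i hi a a.2).2, ← (hg1 i hi c c.2).2, ← hhat i hi, ← hhat i hi, hac]
  let gset : Set (Equiv.Perm (Fin C.N)) := {p | ∃ i, i < C.k ∧ ∀ a, p a = hat i a}
  let G : Subgroup (Equiv.Perm (Fin C.N)) := Subgroup.closure gset
  have hgen : ∀ i, ∃ p : G, i < C.k → ∀ a, ((p.1 a : Fin C.N) : ℕ) = C.g i a := by
    intro i
    by_cases hi : i < C.k
    · exact ⟨⟨Equiv.ofBijective (hat i) (Finite.injective_iff_bijective.1 (hhatinj i hi)),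
        Subgroup.subset_closure ⟨i, hi, fun a => rfl⟩⟩, fun _ a => hhat i hi a⟩
    · exact ⟨1, fun h => absurd h hi⟩
  choose pg hpg using hgen
  have htr : ∀ a : ℕ, a < C.N → ∃ g : G, ((g.1 o : Fin C.N) : ℕ) = a := by
    intro a
    induction a using Nat.strong_induction_on with
    | _ a ih =>
      intro ha
      rcases Nat.eq_zero_or_pos a with h0 | h0
      · exact ⟨1, h0.symm⟩
      · obtain ⟨h1, h2, h3⟩ := hg2 a ha h0.ne'
        obtain ⟨g, hg⟩ := ih (C.pr a) h1 (h1.trans ha)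
        refine ⟨pg (C.ge a) * g, ?_⟩
        change (((pg (C.ge a)).1 (g.1 o) : Fin C.N) : ℕ) = a
        rw [hpg _ h2, hg, h3]
  have hinv : ∀ (ρ : Setoid (Fin C.N)), (∀ i, i < C.k → ∀ a a', ρ a a' → ρ (hat i a) (hat i a')) →
      ∀ g : G, ∀ a a', ρ (g.1 a) (g.1 a') ↔ ρ a a' := by
    intro ρ hρ
    have hfw : ∀ i, i < C.k → ∀ a a', ρ (hat i a) (hat i a') ↔ ρ a a' := by
      intro i hi a a'
      refine ⟨fun h => ?_, hρ i hi a a'⟩
      let p : Equiv.Perm (Fin C.N) :=
        Equiv.ofBijective (hat i) (Finite.injective_iff_bijective.1 (hhatinj i hi))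
      have hpk : ∀ m : ℕ, ∀ a a', ρ a a' → ρ ((p ^ m) a) ((p ^ m) a') := by
        intro m
        induction m with
        | zero => exact fun a a' h => h
        | succ m ih =>
          intro a a' h
          rw [pow_succ']
          exact hρ i hi _ _ (ih a a' h)
      obtain ⟨m, hm, hpm1⟩ := isOfFinOrder_iff_pow_eq_one.1 (isOfFinOrder_of_finite p)
      have h5 := hpk (m - 1) _ _ h
      have h6 : ∀ a, (p ^ (m - 1)) (hat i a) = a := by
        intro a
        have h7 : (p ^ (m - 1) * p) a = a := by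
          rw [← pow_succ, Nat.sub_add_cancel hm, hpm1]
          rfl
        exact h7
      rwa [h6, h6] at h5
    intro g
    have key : ∀ p : Equiv.Perm (Fin C.N), p ∈ G → ∀ a a', ρ (p a) (p a') ↔ ρ a a' := by
      intro p hp
      induction hp using Subgroup.closure_induction with
      | mem p hp =>
        obtain ⟨i, hi, hpf⟩ := hp
        intro a a'
        rw [hpf, hpf]
        exact hfw i hi a a'
      | one => exact fun a a' => Iff.rfl
      | mul p q _ _ ihp ihq =>
        intro a a'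
        exact (ihp (q a) (q a')).trans (ihq a a')
      | inv p _ ih =>
        intro a a'
        have h8 := ih (p⁻¹ a) (p⁻¹ a')
        have h9 : ∀ a, p (p⁻¹ a) = a := fun a => p.apply_symm_apply a
        rw [h9, h9] at h8
        exact h8.symm
    exact key g.1 g.2
  let th : FO C.n C.b → Setoid (Fin C.N) := fun x =>
    { r := fun a c => C.t x.v a = C.t x.v c
      iseqv := ⟨fun _ => rfl, fun h => h.symm, fun h h' => h.trans h'⟩ }
  have hthf : ∀ x : FO C.n C.b, ∀ i, i < C.k → ∀ a a', th x a a' → th x (hat i a) (hat i a') := by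
    intro x i hi a a' haa'
    change C.t x.v (hat i a) = C.t x.v (hat i a')
    rw [hhat i hi, hhat i hi, (ht x.v x.v_lt a a.2).2.2.2 i hi,
      (ht x.v x.v_lt a' a'.2).2.2.2 i hi, show C.t x.v a = C.t x.v a' from haa']
  have hthG : ∀ x : FO C.n C.b, ∀ g : G, ∀ a a', th x (g.1 a) (g.1 a') ↔ th x a a' :=
    fun x => hinv (th x) (hthf x)
  have hle0 : ∀ y, C.le 0 y = true := fun y => by simp [le, ordB]
  have ht0 : ∀ x : FO C.n C.b, C.t x.v 0 = 0 := by
    intro x
    rw [(ht x.v x.v_lt 0 (by omega)).2.2.1, hcl0']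
    exact hle0 _
  let H : Subgroup G :=
    { carrier := {g | g.1 o = o}
      one_mem' := rfl
      mul_mem' := by
        intro p q hp hq
        change p.1 (q.1 o) = o
        rw [show q.1 o = o from hq]
        exact hp
      inv_mem' := by
        intro p hp
        change p.1⁻¹ o = o
        have h1 : p.1⁻¹ (p.1 o) = o := p.1.symm_apply_apply o
        rwa [show p.1 o = o from hp] at h1 }
  let St : FO C.n C.b → Subgroup G := fun x =>
    { carrier := {g | th x o (g.1 o)}
      one_mem' := Setoid.refl' (th x) o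
      mul_mem' := by
        intro p q hp hq
        change th x o (p.1 (q.1 o))
        exact Setoid.trans' _ hp ((hthG x p o (q.1 o)).2 hq)
      inv_mem' := by
        intro p hp
        change th x o (p.1⁻¹ o)
        have h1 := (hthG x p⁻¹ o (p.1 o)).2 hp
        have h2 : (p⁻¹ : G).1 (p.1 o) = o := p.1.symm_apply_apply o
        rw [h2] at h1
        exact Setoid.symm' _ h1 }
  have hSt : ∀ x g, g ∈ St x ↔ C.le (C.cl ((g.1 o : Fin C.N) : ℕ)) x.v = true := by
    intro x g
    rw [← (ht x.v x.v_lt _ (g.1 o).2).2.2.1]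
    change C.t x.v 0 = C.t x.v (g.1 o) ↔ _
    rw [ht0]
    exact eq_comm
  have hHSt : ∀ x, H ≤ St x := by
    intro x g hg
    change th x o (g.1 o)
    rw [show g.1 o = o from hg]
  have happ : ∀ f a, a < C.N → ∃ q : G, ∀ p : Fin C.N, ((q.1 p : Fin C.N) : ℕ) = C.app f a p := by
    intro f
    induction f with
    | zero => exact fun a _ => ⟨1, fun p => rfl⟩
    | succ f ih =>
      intro a ha
      rcases Nat.eq_zero_or_pos a with h0 | h0
      · refine ⟨1, fun p => ?_⟩
        rw [app, h0]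
        rfl
      · obtain ⟨h1, h2, h3⟩ := hg2 a ha h0.ne'
        obtain ⟨q, hq⟩ := ih (C.pr a) (h1.trans ha)
        refine ⟨pg (C.ge a) * q, fun p => ?_⟩
        change (((pg (C.ge a)).1 (q.1 p) : Fin C.N) : ℕ) = _
        rw [hpg _ h2, hq, app, if_neg (by simpa using h0.ne')]
  have h7' : ∀ x, x < C.n → x ≠ 0 → C.rp x < C.N ∧ C.cl (C.rp x) = x ∧
      C.r x 0 = C.rp x := by
    intro x hx h0
    have h := allN_iff.1 h7 x hx
    simp only [c7, Bool.or_eq_true, Bool.and_eq_true] at h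
    rcases h with h | h
    · exact absurd (by simpa using h) h0
    · exact ⟨by simpa using h.1.1, by simpa using h.1.2, by simpa using h.2⟩
  have hqr0 : ∀ x, ∃ q : G, (x < C.n → x ≠ 0 → ∀ p : Fin C.N, ((q.1 p : Fin C.N) : ℕ) = C.r x p) := by
    intro x
    by_cases hx : x < C.n ∧ x ≠ 0
    · obtain ⟨q, hq⟩ := happ 40 (C.rp x) (h7' x hx.1 hx.2).1
      exact ⟨q, fun _ _ => hq⟩
    · exact ⟨1, fun h1 h2 => absurd ⟨h1, h2⟩ hx⟩
  choose qr hqr using hqr0
  have hStle : ∀ x y, St x ≤ St y ↔ x ≤ y := by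
    intro x y
    constructor
    · intro h
      rcases Nat.eq_zero_or_pos x.v with h0 | h0
      · change C.le x.v y.v = true
        rw [h0]
        exact hle0 _
      · obtain ⟨h1, h2, h3⟩ := h7' x.v x.v_lt h0.ne'
        have h5 : qr x.v ∈ St x := by
          rw [hSt, hqr _ x.v_lt h0.ne']
          change C.le (C.cl (C.r x.v 0)) x.v = true
          rw [h3, h2]
          exact ordB_refl _ _ _
        have h6 := (hSt _ _).1 (h h5)
        rw [hqr _ x.v_lt h0.ne'] at h6
        change C.le (C.cl (C.r x.v 0)) y.v = true at h6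
        rw [h3, h2] at h6
        exact h6
    · intro h g hg
      rw [hSt] at hg ⊢
      have h3 := allN_iff.1 h5 _ (g.1 o).2
      simp only [c5, Bool.and_eq_true] at h3
      have h4 : C.cl ((g.1 o : Fin C.N) : ℕ) < C.n := by simpa using h3.1
      exact le_trans (a := (FO.mk _ h4 : FO C.n C.b)) (b := x) (c := y) hg h
  refine ⟨G, inferInstance, inferInstance, H,
    ⟨RelIso.ofSurjective (OrderEmbedding.ofMapLEIff (fun x => ⟨St x, hHSt x⟩) hStle) ?_⟩⟩
  rintro ⟨S, hHS⟩
  let InP : ℕ → Prop := fun a => ∃ s ∈ S, ((s.1 o : Fin C.N) : ℕ) = a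
  have hP0 : InP 0 := ⟨1, S.one_mem, rfl⟩
  have hPm : ∀ (q : G), q ∈ S → ∀ F : ℕ → ℕ, (∀ p : Fin C.N, ((q.1 p : Fin C.N) : ℕ) = F p) →
      ∀ a, InP a → InP (F a) := by
    rintro q hq F hF _ ⟨s, hs, rfl⟩
    exact ⟨q * s, S.mul_mem hq hs, hF (s.1 o)⟩
  have hPi : ∀ (q : G), q ∈ S → ∀ F : ℕ → ℕ, (∀ p : Fin C.N, ((q.1 p : Fin C.N) : ℕ) = F p) →
      ∀ a, a < C.N → InP (F a) → InP a := by
    rintro q hq F hF a ha ⟨s, hs, h⟩
    refine ⟨q⁻¹ * s, S.mul_mem (S.inv_mem hq) hs, ?_⟩
    have h3 : s.1 o = q.1 ⟨a, ha⟩ := Fin.ext (h.trans (hF ⟨a, ha⟩).symm)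
    change ((q.1⁻¹ (s.1 o) : Fin C.N) : ℕ) = a
    rw [h3]
    exact congrArg Fin.val (q.1.symm_apply_apply ⟨a, ha⟩)
  have hS : ∀ q : G, InP ((q.1 o : Fin C.N) : ℕ) → q ∈ S := by
    rintro q ⟨s, hs, h⟩
    have h3 : s⁻¹ * q ∈ H := by
      change s.1⁻¹ (q.1 o) = o
      rw [← show s.1 o = q.1 o from Fin.ext h]
      exact s.1.symm_apply_apply o
    have h4 : q = s * (s⁻¹ * q) := by group
    rw [h4]
    exact S.mul_mem hs (hHS h3)
  have hgN : ∀ i, i < C.nh → pg i ∈ S := by
    intro i hi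
    apply hHS
    apply Fin.ext
    change (((pg i).1 o : Fin C.N) : ℕ) = 0
    rw [hpg i (hi.trans_le hnk')]
    have h := allN_iff.1 hfix i hi
    rw [beq_iff_eq] at h
    exact h
  have hev : ∀ (a : ℕ) (q : G), q ∈ S → (∀ p : Fin C.N, ((q.1 p : Fin C.N) : ℕ) = C.app 40 a p) →
      ∀ f w p, InP p → InP (C.ev f a w p) := by
    intro a q hq hqa f
    induction f with
    | zero => exact fun w p hp => hp
    | succ f ih =>
      intro w p hp
      rw [ev]
      split_ifs with hw hb
      · exact hp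
      · apply ih
        have h1 : w % 16 ≠ 0 := by simpa using hw
        have h2 : w % 16 ≤ C.nh := by simpa using hb
        exact hPm (pg (w % 16 - 1)) (hgN _ (by omega)) _ (hpg _ (by omega)) p hp
      · apply ih
        exact hPm q hq _ hqa p hp
  have h5' : ∀ a, a < C.N → C.cl a < C.n := by
    intro a ha
    have h := allN_iff.1 h5 a ha
    simp only [c5, Bool.and_eq_true] at h
    simpa using h.1
  have hrep : ∀ a, a < C.N → InP a → InP (C.rp (C.cl a)) := by
    intro a
    induction a using Nat.strong_induction_on with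
    | _ a ih =>
      intro ha hP
      rcases Nat.eq_zero_or_pos a with h0 | h0
      · rw [h0, hcl0', hrp0']
        exact hP0
      · obtain ⟨h1, h2, h3⟩ := hg2 a ha h0.ne'
        have h := allN_iff.1 h5 a ha
        simp only [c5, Bool.and_eq_true, Bool.or_eq_true] at h
        rcases h.2 with h | h
        · exact absurd (by simpa using h) h0.ne'
        · split_ifs at h with hb
          · have hb' : C.ge a < C.nh := by simpa using hb
            have h4 : C.cl a = C.cl (C.pr a) := by simpa using h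
            rw [h4]
            apply ih _ h1 (h1.trans ha)
            refine hPi (pg (C.ge a)) (hgN _ hb') _ (hpg _ h2) _ (h1.trans ha) ?_
            rw [h3]
            exact hP
          · rw [Bool.and_eq_true, beq_iff_eq, beq_iff_eq] at h
            obtain ⟨q, hq⟩ := happ 40 a ha
            have h4 : q ∈ S := by
              apply hS
              rw [hq]
              change InP (C.app 40 a 0)
              rw [h.1]
              exact hP
            rw [← h.2]
            exact hev a q h4 hq _ _ _ hP0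
  have hblk : ∀ x, x < C.n → x ≠ 0 → InP (C.rp x) → ∀ a, a < C.N → C.le (C.cl a) x = true →
      InP a := by
    intro x hx h0 hr
    obtain ⟨h1, h2, h3⟩ := h7' x hx h0
    have hrS : qr x ∈ S := by
      apply hS
      rw [hqr x hx h0]
      change InP (C.r x 0)
      rw [h3]
      exact hr
    have key : ∀ m a, C.sc x a / 16 = m → a < C.N → C.le (C.cl a) x = true → InP a := by
      intro m
      induction m using Nat.strong_induction_on with
      | _ m ih =>
        intro a hm ha hc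
        have h := allN_iff.1 h8 x hx
        rw [Bool.or_eq_true] at h
        rcases h with h | h
        · exact absurd (by simpa using h) h0
        have h' := allN_iff.1 h a ha
        simp only [c8, Bool.or_eq_true, Bool.and_eq_true] at h'
        rcases h' with (h' | h') | h'
        · rw [show a = 0 by simpa using h']
          exact hP0
        · rw [hc] at h'
          exact absurd h' (by simp)
        · have h6 : C.sc x (C.mv x a) / 16 < C.sc x a / 16 := by simpa using h'.2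
          have h10 : ∃ q : G, q ∈ S ∧ ((q.1 ⟨a, ha⟩ : Fin C.N) : ℕ) = C.mv x a := by
            rw [mv]
            split_ifs with hb
            · have hb' : C.sc x a % 16 < C.nh := by simpa using hb
              exact ⟨pg _, hgN _ hb', hpg _ (hb'.trans_le hnk') ⟨a, ha⟩⟩
            · exact ⟨qr x, hrS, hqr x hx h0 ⟨a, ha⟩⟩
          obtain ⟨q, hq, hqa⟩ := h10
          have h12 := ih _ (by rw [← hm]; exact h6) (C.mv x a) rfl
            (by rw [← hqa]; exact (q.1 ⟨a, ha⟩).2) h'.1
          obtain ⟨s, hs, h13⟩ := h12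
          refine ⟨q⁻¹ * s, S.mul_mem (S.inv_mem hq) hs, ?_⟩
          have h14 : s.1 o = q.1 ⟨a, ha⟩ := Fin.ext (h13.trans hqa.symm)
          change ((q.1⁻¹ (s.1 o) : Fin C.N) : ℕ) = a
          rw [h14]
          exact congrArg Fin.val (q.1.symm_apply_apply ⟨a, ha⟩)
    exact fun a ha hc => key _ a rfl ha hc
  have hej : ∀ x y, qr x ∈ S → x < C.n → x ≠ 0 → qr y ∈ S → y < C.n → y ≠ 0 →
      ∀ f w p, InP p → InP (C.ej f x y w p) := by
    intro x y hx hx' hx0 hy hy' hy0 f
    induction f with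
    | zero => exact fun w p hp => hp
    | succ f ih =>
      intro w p hp
      rw [ej]
      split_ifs with hw hb hc
      · exact hp
      · apply ih
        have h1 : w % 16 ≠ 0 := by simpa using hw
        have h2 : w % 16 ≤ C.nh := by simpa using hb
        exact hPm (pg (w % 16 - 1)) (hgN _ (by omega)) _ (hpg _ (by omega)) p hp
      · exact ih _ _ (hPm _ hx _ (hqr _ hx' hx0) p hp)
      · exact ih _ _ (hPm _ hy _ (hqr _ hy' hy0) p hp)
  have hInN : ∀ a, InP a → a < C.N := by
    rintro _ ⟨s, _, rfl⟩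
    exact (s.1 o).2
  have hrS : ∀ x, x < C.n → x ≠ 0 → InP (C.rp x) → qr x ∈ S := by
    intro x hx h0 hr
    obtain ⟨h1, h2, h3⟩ := h7' x hx h0
    apply hS
    rw [hqr x hx h0]
    change InP (C.r x 0)
    rw [h3]
    exact hr
  have hdir : ∀ x y, x < C.n → y < C.n → InP (C.rp x) → InP (C.rp y) →
      ∃ z, z < C.n ∧ InP (C.rp z) ∧ C.le x z = true ∧ C.le y z = true := by
    intro x y hx hy hx' hy'
    have h := allN_iff.1 (allN_iff.1 h9 x hx) y hy
    simp only [c9, Bool.or_eq_true, Bool.and_eq_true] at h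
    rcases h with (h | h) | h
    · exact ⟨y, hy, hy', h, ordB_refl _ _ _⟩
    · exact ⟨x, hx, hx', ordB_refl _ _ _, h⟩
    · by_cases hx0 : x = 0
      · exact ⟨y, hy, hy', by rw [hx0]; exact hle0 _, ordB_refl _ _ _⟩
      by_cases hy0 : y = 0
      · exact ⟨x, hx, hx', ordB_refl _ _ _, by rw [hy0]; exact hle0 _⟩
      have hq := hej x y (hrS x hx hx0 hx') hx hx0 (hrS y hy hy0 hy') hy hy0 40
        (C.jw.getD (C.n * x + y) 0) 0 hP0
      exact ⟨_, h5' _ (hInN _ hq), hrep _ (hInN _ hq) hq, h.1, h.2⟩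
  have hFf : Finite (FO C.n C.b) := inferInstanceAs (Finite (Fin C.n))
  obtain ⟨z, hz, hmax⟩ := (Set.toFinite {x : FO C.n C.b | InP (C.rp x.v)}).exists_maximal
    ⟨FO.mk 0 hn', by
      change InP (C.rp 0)
      rw [hrp0']
      exact hP0⟩
  have hz' : InP (C.rp z.v) := hz
  have hgr : ∀ x, x < C.n → InP (C.rp x) → C.le x z.v = true := by
    intro x hx hx'
    obtain ⟨w, hw, hw', h1, h2⟩ := hdir x z.v hx z.v_lt hx' hz'
    have h3 := hmax (y := FO.mk w hw) hw' h2
    exact le_trans (a := (FO.mk x hx : FO C.n C.b)) (b := FO.mk w hw) (c := z) h1 h3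
  refine ⟨z, ?_⟩
  apply Subtype.ext
  ext q
  change q ∈ St z ↔ q ∈ S
  rw [hSt]
  constructor
  · intro hq
    apply hS
    by_cases hz0 : z.v = 0
    · have h3 := (ht z.v z.v_lt _ (q.1 o).2).2.2.1.2 hq
      have h4 := allN_iff.1 hid _ (q.1 o).2
      rw [beq_iff_eq] at h4
      rw [hz0, h4] at h3
      rw [h3]
      exact hP0
    · exact hblk z.v z.v_lt hz0 hz' _ (q.1 o).2 hq
  · intro hq
    exact hgr _ (h5' _ (q.1 o).2) (hrep _ (q.1 o).2 ⟨q, hq, rfl⟩)

theorem chk_of
    (ha : (Nat.blt 1 C.N && Nat.blt 0 C.n && isPO C.n C.b && Nat.ble C.nh C.k &&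
      (allN C.nh fun i => C.g i 0 == 0) && (C.rp 0 == 0) && (C.cl 0 == 0) &&
      (allN C.n fun x => x == 0 || C.c7 x) && (allN C.n fun x => allN C.n (C.c9 x))) = true)
    (h1 : (allN C.k fun i => allN C.N (C.c1 i)) = true) (h2 : allN C.N C.c2 = true)
    (h4 : ∀ x, x < C.n → allN C.N (C.c4 x) = true)
    (h40 : (allN C.N fun a => C.t 0 a == a) = true) (h5 : allN C.N C.c5 = true)
    (h8 : (allN C.n fun x => x == 0 || allN C.N (C.c8 x)) = true) : C.chk = true := by
  simp only [Bool.and_eq_true] at ha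
  obtain ⟨⟨⟨⟨⟨⟨⟨⟨hN, hn⟩, hpo⟩, hnk⟩, hfix⟩, hrp0⟩, hcl0⟩, h7⟩, h9⟩ := ha
  simp only [chk, Bool.and_eq_true]
  exact ⟨⟨⟨⟨⟨⟨⟨⟨⟨⟨⟨⟨⟨⟨hN, hn⟩, hpo⟩, hnk⟩, h1⟩, hfix⟩, h2⟩, allN_iff.2 h4⟩, h40⟩, h5⟩, hrp0⟩, hcl0⟩, h7⟩,
    h8⟩, h9⟩

end BF

end Vale.Agent.P183.H996
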