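import Vale.Agent.P183.Bdl.B3

/-!
The union of a principal filter and a principal ideal of a representable lattice is
representable (Snow).
-/

namespace Vale.Agent.P183.H996

open Vale.Agent.P183

/-- **Filter and ideal.** If `L` is representable then so is the sublattice of all `x` with
`a ≤ x` or `x ≤ b`. -/
theorem representable_filter_ideal {L : Type} [PartialOrder L] (h : Representable L) (a b : L) :
    Representable {x : L // a ≤ x ∨ x ≤ b} := by
  classical
  obtain ⟨A, hAf, hAn, κ, hκ, hcl⟩ := h.exists_closed
  let F : Set (A → A) :=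
    {f | ∀ l, (a ≤ l ∨ l ≤ b) → ∀ x y, κ l x y → κ l (f x) (f y)}
  let g : {x : L // a ≤ x ∨ x ≤ b} →
      {ρ : Setoid A // (⊥ : Setoid A) ≤ ρ ∧ ∀ f ∈ F, ∀ b b', ρ b b' → ρ (f b) (f b')} :=
    fun l => ⟨κ l.1, bot_le, fun f hf x y hxy => hf l.1 l.2 x y hxy⟩
  refine representable_of_adm ⊥ F ⟨RelIso.ofSurjective (OrderEmbedding.ofMapLEIff g ?_) ?_⟩
  · intro x y
    exact hκ x.1 y.1
  · rintro ⟨ρ, hb, hρ⟩
    obtain ⟨l, hl⟩ := hcl ρ (fun f hf x y hxy => hρ f (fun l' _ => hf l') x y hxy)
    have hlab : a ≤ l ∨ l ≤ b := by
      by_cases hlb : l ≤ b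
      · exact Or.inr hlb
      · left
        have hex : ∃ x y, κ l x y ∧ ¬ κ b x y := by
          by_contra hcon
          apply hlb
          rw [← hκ]
          intro x y hxy
          by_contra hn
          exact hcon ⟨x, y, hxy, hn⟩
        obtain ⟨x, y, hxy, hnxy⟩ := hex
        rw [← hκ]
        intro u v huv
        let f : A → A := fun t => if κ b x t then u else v
        have hf : f ∈ F := by
          rintro l' (hl' | hl') s t hst
          · have huv' : κ l' u v := (hκ a l').2 hl' huv
            change κ l' (if κ b x s then u else v) (if κ b x t then u else v)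
            split_ifs
            · exact Setoid.refl' _ _
            · exact huv'
            · exact Setoid.symm' _ huv'
            · exact Setoid.refl' _ _
          · have hst' : κ b s t := (hκ l' b).2 hl' hst
            have hiff : κ b x s ↔ κ b x t :=
              ⟨fun h => Setoid.trans' _ h hst', fun h => Setoid.trans' _ h (Setoid.symm' _ hst')⟩
            change κ l' (if κ b x s then u else v) (if κ b x t then u else v)
            simp only [hiff]
            exact Setoid.refl' _ _
        have h1 : ρ (f x) (f y) := hρ f hf x y (by rw [← hl]; exact hxy)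
        rw [← hl] at h1
        have h2 : f x = u := if_pos (Setoid.refl' _ _)
        have h3 : f y = v := if_neg hnxy
        rwa [h2, h3] at h1
    exact ⟨⟨l, hlab⟩, Subtype.ext hl⟩

end Vale.Agent.P183.H996
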